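import Vale.Agent.P139.H694.SB4
import Vale.Agent.P139.KU.NonDeg

/-!
# SB4, form consumed by the assembly of block S2

Matching relations at the radii `R_j + η` (first `j → ∞`, then `η → 0`), divided differences in
the spectral parameter, orthogonality of the data at a fixed radius.
-/

noncomputable section

open Filter Topology Complex ComplexConjugate Vale.Agent.P139.KU

namespace Vale.Agent.P139.H694

/-! ### Divided differences of the slow solutions in the spectral parameter -/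

/-- Divided difference of `F0` between `lam0` and `lam`; equal to `dF0` if `lam = lam0`. -/
def sF0 (d l : ℕ) (w : ℝ) (lam0 lam : ℂ) (r : ℝ) : ℂ := dslope (fun z => F0 d l w z r) lam0 lam
/-- Divided difference of `F0'`. -/
def sF0' (d l : ℕ) (w : ℝ) (lam0 lam : ℂ) (r : ℝ) : ℂ := dslope (fun z => F0' d l w z r) lam0 lam
/-- Divided difference of `F0s`. -/
def sF0s (d l : ℕ) (w : ℝ) (lam0 lam : ℂ) (r : ℝ) : ℂ := dslope (fun z => F0s d l w z r) lam0 lam
/-- Divided difference of `F0s'`. -/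
def sF0s' (d l : ℕ) (w : ℝ) (lam0 lam : ℂ) (r : ℝ) : ℂ :=
  dslope (fun z => F0s' d l w z r) lam0 lam

section basic

variable {d l : ℕ} {w r : ℝ} {lam0 lam : ℂ}

lemma sF0_same : sF0 d l w lam lam r = dF0 d l w lam r := dslope_same _ _
lemma sF0'_same : sF0' d l w lam lam r = dF0' d l w lam r := dslope_same _ _
lemma sF0s_same : sF0s d l w lam lam r = dF0s d l w lam r := dslope_same _ _
lemma sF0s'_same : sF0s' d l w lam lam r = dF0s' d l w lam r := dslope_same _ _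

lemma sF0_of_ne (h : lam ≠ lam0) :
    sF0 d l w lam0 lam r = (F0 d l w lam r - F0 d l w lam0 r) / (lam - lam0) := by
  rw [sF0, dslope_of_ne _ h, slope_def_field]
lemma sF0'_of_ne (h : lam ≠ lam0) :
    sF0' d l w lam0 lam r = (F0' d l w lam r - F0' d l w lam0 r) / (lam - lam0) := by
  rw [sF0', dslope_of_ne _ h, slope_def_field]
lemma sF0s_of_ne (h : lam ≠ lam0) :
    sF0s d l w lam0 lam r = (F0s d l w lam r - F0s d l w lam0 r) / (lam - lam0) := by
  rw [sF0s, dslope_of_ne _ h, slope_def_field]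
lemma sF0s'_of_ne (h : lam ≠ lam0) :
    sF0s' d l w lam0 lam r = (F0s' d l w lam r - F0s' d l w lam0 r) / (lam - lam0) := by
  rw [sF0s', dslope_of_ne _ h, slope_def_field]

end basic

/-- Convergence of divided differences to the derivative, uniformly in parameters. -/
lemma tendsto_dslope_param {f : ℕ → ℕ → ℝ → ℂ → ℝ → ℂ} {d l : ℕ} {w R : ℝ} {lam : ℂ}
    (h : -1 < lam.re + l / 2) (hR : 0 < R)
    (hd : ∀ (w : ℝ) (z : ℂ), -1 < z.re + l / 2 → ∀ r : ℝ, 0 < r →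
      DifferentiableAt ℂ (fun z => f d l w z r) z)
    (hc : ∀ z : ℂ, -1 < z.re + l / 2 →
      ContinuousAt (fun q : (ℝ × ℝ) × ℂ => f d l q.1.1 q.2 q.1.2) ((w, R), z))
    {W Rr : ℕ → ℝ} {L0 L : ℕ → ℂ} (hW : Tendsto W atTop (𝓝 w)) (hRr : Tendsto Rr atTop (𝓝 R))
    (hL0 : Tendsto L0 atTop (𝓝 lam)) (hL : Tendsto L atTop (𝓝 lam)) :
    Tendsto (fun k => dslope (fun z => f d l (W k) z (Rr k)) (L0 k) (L k)) atTop
      (𝓝 (deriv (fun z => f d l w z R) lam)) := by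
  set D := deriv (fun z => f d l w z R) lam with hD
  have hpos : ∀ᶠ q : ℝ × ℝ in 𝓝 (w, R), 0 < q.2 :=
    (continuous_snd.tendsto (w, R)).eventually (lt_mem_nhds hR)
  have key : ContinuousAt (fun q : (ℝ × ℝ) × ℂ => deriv (fun z => f d l q.1.1 z q.1.2) q.2)
      ((w, R), lam) := by
    refine continuousAt_deriv_family (X := ℝ × ℝ) (f := fun q z => f d l q.1 z q.2)
      (x₀ := (w, R)) (z₀ := lam) (isOpen_dom l) h ?_ hc
    filter_upwards [hpos] with q hq z hz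
    exact (hd q.1 z hz q.2 hq).differentiableWithinAt
  rw [Metric.tendsto_atTop]
  intro ε hε
  have hev : ∀ᶠ q : (ℝ × ℝ) × ℂ in 𝓝 ((w, R), lam),
      ‖deriv (fun z => f d l q.1.1 z q.1.2) q.2 - D‖ < ε / 2 := by
    have := key.tendsto.eventually (Metric.ball_mem_nhds _ (half_pos hε))
    simpa [hD, dist_eq_norm] using this
  rw [nhds_prod_eq, eventually_prod_iff] at hev
  obtain ⟨pa, hpa, pb, hpb, hp⟩ := hev
  have hdom : ∀ᶠ z : ℂ in 𝓝 lam, -1 < z.re + l / 2 := (isOpen_dom l).mem_nhds h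
  obtain ⟨δ, hδ, hball⟩ := Metric.eventually_nhds_iff_ball.1 (hpb.and hdom)
  have e1 := (hW.prodMk_nhds hRr).eventually (hpa.and hpos)
  have e2 := hL0.eventually (Metric.ball_mem_nhds lam hδ)
  have e3 := hL.eventually (Metric.ball_mem_nhds lam hδ)
  obtain ⟨N, hN⟩ := eventually_atTop.1 (e1.and (e2.and e3))
  refine ⟨N, fun k hk => ?_⟩
  obtain ⟨⟨ha, hr⟩, hz0, hz1⟩ := hN k hk
  rw [dist_eq_norm]
  refine lt_of_le_of_lt ?_ (half_lt_self hε)
  by_cases hne : L k = L0 k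
  · rw [hne, dslope_same]
    exact (hp ha (hball _ hz0).1).le
  · rw [dslope_of_ne _ hne, slope_def_field]
    have hb := (convex_ball lam δ).norm_image_sub_le_of_norm_deriv_le
      (f := fun z => f d l (W k) z (Rr k) - D * z) (C := ε / 2) (x := L0 k) (y := L k)
      ?_ ?_ hz0 hz1
    · have hsub : L k - L0 k ≠ 0 := sub_ne_zero.2 hne
      have hnz : 0 < ‖L k - L0 k‖ := norm_pos_iff.2 hsub
      have heq : (f d l (W k) (L k) (Rr k) - f d l (W k) (L0 k) (Rr k)) / (L k - L0 k) - D =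
          ((f d l (W k) (L k) (Rr k) - D * L k) - (f d l (W k) (L0 k) (Rr k) - D * L0 k)) /
            (L k - L0 k) := by
        field_simp
        ring
      rw [heq, norm_div, div_le_iff₀ hnz]
      exact hb
    · intro z hz
      exact (hd _ z (hball z hz).2 _ hr).sub (differentiableAt_id.const_mul D)
    · intro z hz
      have h1 := (hd (W k) z (hball z hz).2 (Rr k) hr).hasDerivAt
      have h2 : HasDerivAt (fun z => f d l (W k) z (Rr k) - D * z)
          (deriv (fun z => f d l (W k) z (Rr k)) z - D * 1) z :=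
        h1.sub ((hasDerivAt_id z).const_mul D)
      rw [h2.deriv, mul_one]
      exact (hp ha (hball z hz).1).le

namespace ParSeq

variable {d l : ℕ} {w R : ℝ} {lam : ℂ} {W Rr : ℕ → ℝ} {L0 L : ℕ → ℂ}

lemma sF0 (h : ParSeq l w R lam W Rr L) (h0 : Tendsto L0 atTop (𝓝 lam)) :
    Tendsto (fun k => H694.sF0 d l (W k) (L0 k) (L k) (Rr k)) atTop (𝓝 (H694.dF0 d l w lam R)) :=
  tendsto_dslope_param (f := KU.F0) h.hlam h.hR
    (fun _ _ hz _ hr => differentiableAt_F0 hz hr) (fun _ hz => contF0 hz h.hR)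
    h.hW h.hRr h0 h.hL

lemma sF0' (h : ParSeq l w R lam W Rr L) (h0 : Tendsto L0 atTop (𝓝 lam)) :
    Tendsto (fun k => H694.sF0' d l (W k) (L0 k) (L k) (Rr k)) atTop
      (𝓝 (H694.dF0' d l w lam R)) :=
  tendsto_dslope_param (f := KU.F0') h.hlam h.hR
    (fun _ _ hz _ hr => differentiableAt_F0' hz hr) (fun _ hz => contF0' hz h.hR)
    h.hW h.hRr h0 h.hL

lemma sF0s (h : ParSeq l w R lam W Rr L) (h0 : Tendsto L0 atTop (𝓝 lam)) :
    Tendsto (fun k => H694.sF0s d l (W k) (L0 k) (L k) (Rr k)) atTop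
      (𝓝 (H694.dF0s d l w lam R)) :=
  tendsto_dslope_param (f := KU.F0s) h.hlam h.hR
    (fun _ _ hz _ hr => differentiableAt_F0s hz hr) (fun _ hz => contF0s hz h.hR)
    h.hW h.hRr h0 h.hL

lemma sF0s' (h : ParSeq l w R lam W Rr L) (h0 : Tendsto L0 atTop (𝓝 lam)) :
    Tendsto (fun k => H694.sF0s' d l (W k) (L0 k) (L k) (Rr k)) atTop
      (𝓝 (H694.dF0s' d l w lam R)) :=
  tendsto_dslope_param (f := KU.F0s') h.hlam h.hR
    (fun _ _ hz _ hr => differentiableAt_F0s' hz hr) (fun _ hz => contF0s' hz h.hR)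
    h.hW h.hRr h0 h.hL

lemma subseq (h : ParSeq l w R lam W Rr L) {φ : ℕ → ℕ} (hφ : StrictMono φ) :
    ParSeq l w R lam (W ∘ φ) (Rr ∘ φ) (L ∘ φ) :=
  ⟨h.hlam, h.hR, h.hW.comp hφ.tendsto_atTop, h.hRr.comp hφ.tendsto_atTop,
    h.hL.comp hφ.tendsto_atTop⟩

lemma const (l : ℕ) (w : ℝ) {R : ℝ} {lam : ℂ} (hlam : -1 < lam.re + l / 2) (hR : 0 < R) :
    ParSeq l w R lam (fun _ => w) (fun _ => R) (fun _ => lam) :=
  ⟨hlam, hR, tendsto_const_nhds, tendsto_const_nhds, tendsto_const_nhds⟩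

end ParSeq

/-- Left hand side of the first matching relation, with divided differences. -/
def nS (d l : ℕ) (w r : ℝ) (lam0 lam α β c α0 β0 : ℂ) : ℂ :=
  α * F0 d l w lam r + β * F0s d l w lam r +
    c * (α0 * sF0 d l w lam0 lam r + β0 * sF0s d l w lam0 lam r)

/-- Left hand side of the second matching relation, with divided differences. -/
def nT (d l : ℕ) (w r : ℝ) (lam0 lam α β c α0 β0 : ℂ) : ℂ :=
  α * F0' d l w lam r - β * F0s' d l w lam r +
    c * (α0 * sF0' d l w lam0 lam r - β0 * sF0s' d l w lam0 lam r)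

lemma nS_same {d l : ℕ} {w r : ℝ} {lam α β c α0 β0 : ℂ} :
    nS d l w r lam lam α β c α0 β0 = mS d l w r lam α β c α0 β0 := by
  simp only [nS, mS, sF0_same, sF0s_same]

lemma nT_same {d l : ℕ} {w r : ℝ} {lam α β c α0 β0 : ℂ} :
    nT d l w r lam lam α β c α0 β0 = mT d l w r lam α β c α0 β0 := by
  simp only [nT, mT, sF0'_same, sF0s'_same]

section limit

variable {d l : ℕ} {w R : ℝ} {lam : ℂ} {W Rr : ℕ → ℝ} {L0 L α β c α0 β0 : ℕ → ℂ}
  {a b e a0 b0 : ℂ}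

lemma tendsto_nS (h : ParSeq l w R lam W Rr L) (h0 : Tendsto L0 atTop (𝓝 lam))
    (ha : Tendsto α atTop (𝓝 a)) (hb : Tendsto β atTop (𝓝 b)) (he : Tendsto c atTop (𝓝 e))
    (ha0 : Tendsto α0 atTop (𝓝 a0)) (hb0 : Tendsto β0 atTop (𝓝 b0)) :
    Tendsto (fun k => nS d l (W k) (Rr k) (L0 k) (L k) (α k) (β k) (c k) (α0 k) (β0 k)) atTop
      (𝓝 (mS d l w R lam a b e a0 b0)) :=
  ((ha.mul (h.F0 (d := d))).add (hb.mul (h.F0s (d := d)))).add
    (he.mul ((ha0.mul (h.sF0 (d := d) h0)).add (hb0.mul (h.sF0s (d := d) h0))))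

lemma tendsto_nT (h : ParSeq l w R lam W Rr L) (h0 : Tendsto L0 atTop (𝓝 lam))
    (ha : Tendsto α atTop (𝓝 a)) (hb : Tendsto β atTop (𝓝 b)) (he : Tendsto c atTop (𝓝 e))
    (ha0 : Tendsto α0 atTop (𝓝 a0)) (hb0 : Tendsto β0 atTop (𝓝 b0)) :
    Tendsto (fun k => nT d l (W k) (Rr k) (L0 k) (L k) (α k) (β k) (c k) (α0 k) (β0 k)) atTop
      (𝓝 (mT d l w R lam a b e a0 b0)) :=
  ((ha.mul (h.F0' (d := d))).sub (hb.mul (h.F0s' (d := d)))).add
    (he.mul ((ha0.mul (h.sF0' (d := d) h0)).sub (hb0.mul (h.sF0s' (d := d) h0))))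

/-- Two step limit: a family `g j η` with `g j η → G η` as `j → ∞` and `G` continuous at `0`
from the right along `R + η`; if the `g j η` are eventually small, the limit vanishes. -/
lemma eq_zero_of_two_step {g : ℕ → ℝ → ℂ} {G : ℝ → ℂ} {G0 : ℂ}
    (hg : ∀ η, 0 < η → Tendsto (fun j => g j η) atTop (𝓝 (G η)))
    (hG : ∀ u : ℕ → ℝ, (∀ n, 0 < u n) → Tendsto u atTop (𝓝 0) →
      Tendsto (fun n => G (u n)) atTop (𝓝 G0))
    (hs : ∀ ε, 0 < ε → ∃ η1 : ℝ, 0 < η1 ∧ ∀ η, 0 < η → η ≤ η1 → ∀ᶠ j in atTop, ‖g j η‖ ≤ ε) :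
    G0 = 0 := by
  have hle : ∀ ε, 0 < ε → ‖G0‖ ≤ ε := by
    intro ε hε
    obtain ⟨η1, hη1, hs⟩ := hs ε hε
    have hu0 : ∀ n : ℕ, 0 < η1 / ((n : ℝ) + 1) := fun n => by positivity
    have hu : Tendsto (fun n : ℕ => η1 / ((n : ℝ) + 1)) atTop (𝓝 0) := by
      have := tendsto_one_div_add_atTop_nhds_zero_nat (𝕜 := ℝ)
      simpa [div_eq_mul_inv] using this.const_mul η1
    refine le_of_tendsto (hG _ hu0 hu).norm (Eventually.of_forall fun n => ?_)
    refine le_of_tendsto (hg _ (hu0 n)).norm (hs _ (hu0 n) ?_)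
    exact div_le_self hη1.le (by linarith [Nat.cast_nonneg (α := ℝ) n])
  by_contra hne
  have hp : 0 < ‖G0‖ := norm_pos_iff.2 hne
  linarith [hle (‖G0‖ / 2) (half_pos hp)]

/-- The limit of the first matching relation. -/
lemma mS_eq_zero (h : ParSeq l w R lam W Rr L) (h0 : Tendsto L0 atTop (𝓝 lam))
    (ha : Tendsto α atTop (𝓝 a)) (hb : Tendsto β atTop (𝓝 b)) (he : Tendsto c atTop (𝓝 e))
    (ha0 : Tendsto α0 atTop (𝓝 a0)) (hb0 : Tendsto β0 atTop (𝓝 b0))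
    (hs : ∀ ε, 0 < ε → ∃ η1 : ℝ, 0 < η1 ∧ ∀ η, 0 < η → η ≤ η1 → ∀ᶠ j in atTop,
      ‖nS d l (W j) (Rr j + η) (L0 j) (L j) (α j) (β j) (c j) (α0 j) (β0 j)‖ ≤ ε) :
    mS d l w R lam a b e a0 b0 = 0 := by
  refine eq_zero_of_two_step
    (g := fun j η => nS d l (W j) (Rr j + η) (L0 j) (L j) (α j) (β j) (c j) (α0 j) (β0 j))
    (G := fun η => mS d l w (R + η) lam a b e a0 b0) ?_ ?_ hs
  · intro η hη
    have h' : ParSeq l w (R + η) lam W (fun k => Rr k + η) L :=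
      ⟨h.hlam, add_pos h.hR hη, h.hW, h.hRr.add_const η, h.hL⟩
    exact tendsto_nS h' h0 ha hb he ha0 hb0
  · intro u _ hu
    have h' : ParSeq l w R lam (fun _ => w) (fun k => R + u k) (fun _ => lam) :=
      ⟨h.hlam, h.hR, tendsto_const_nhds, by simpa using hu.const_add R, tendsto_const_nhds⟩
    have := tendsto_nS (d := d) h' tendsto_const_nhds (tendsto_const_nhds (x := a))
      (tendsto_const_nhds (x := b)) (tendsto_const_nhds (x := e)) (tendsto_const_nhds (x := a0))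
      (tendsto_const_nhds (x := b0))
    simpa only [nS_same] using this

/-- The limit of the second matching relation. -/
lemma mT_eq_zero (h : ParSeq l w R lam W Rr L) (h0 : Tendsto L0 atTop (𝓝 lam))
    (ha : Tendsto α atTop (𝓝 a)) (hb : Tendsto β atTop (𝓝 b)) (he : Tendsto c atTop (𝓝 e))
    (ha0 : Tendsto α0 atTop (𝓝 a0)) (hb0 : Tendsto β0 atTop (𝓝 b0))
    (hs : ∀ ε, 0 < ε → ∃ η1 : ℝ, 0 < η1 ∧ ∀ η, 0 < η → η ≤ η1 → ∀ᶠ j in atTop,
      ‖nT d l (W j) (Rr j + η) (L0 j) (L j) (α j) (β j) (c j) (α0 j) (β0 j)‖ ≤ ε) :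
    mT d l w R lam a b e a0 b0 = 0 := by
  refine eq_zero_of_two_step
    (g := fun j η => nT d l (W j) (Rr j + η) (L0 j) (L j) (α j) (β j) (c j) (α0 j) (β0 j))
    (G := fun η => mT d l w (R + η) lam a b e a0 b0) ?_ ?_ hs
  · intro η hη
    have h' : ParSeq l w (R + η) lam W (fun k => Rr k + η) L :=
      ⟨h.hlam, add_pos h.hR hη, h.hW, h.hRr.add_const η, h.hL⟩
    exact tendsto_nT h' h0 ha hb he ha0 hb0
  · intro u _ hu
    have h' : ParSeq l w R lam (fun _ => w) (fun k => R + u k) (fun _ => lam) :=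
      ⟨h.hlam, h.hR, tendsto_const_nhds, by simpa using hu.const_add R, tendsto_const_nhds⟩
    have := tendsto_nT (d := d) h' tendsto_const_nhds (tendsto_const_nhds (x := a))
      (tendsto_const_nhds (x := b)) (tendsto_const_nhds (x := e)) (tendsto_const_nhds (x := a0))
      (tendsto_const_nhds (x := b0))
    simpa only [nT_same] using this

/-- Compactness of the coefficient vectors. -/
lemma exists_subseq {α β c α0 β0 : ℕ → ℂ} (hn : ∀ k, ‖α k‖ + ‖β k‖ + ‖c k‖ = 1)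
    (hn0 : ∀ k, ‖α0 k‖ + ‖β0 k‖ ≤ 1) :
    ∃ (φ : ℕ → ℕ) (a b e a0 b0 : ℂ), StrictMono φ ∧ Tendsto (α ∘ φ) atTop (𝓝 a) ∧
      Tendsto (β ∘ φ) atTop (𝓝 b) ∧ Tendsto (c ∘ φ) atTop (𝓝 e) ∧
      Tendsto (α0 ∘ φ) atTop (𝓝 a0) ∧ Tendsto (β0 ∘ φ) atTop (𝓝 b0) ∧
      ‖a‖ + ‖b‖ + ‖e‖ = 1 := by
  set x : ℕ → ℂ × ℂ × ℂ × ℂ × ℂ := fun k => (α k, β k, c k, α0 k, β0 k) with hx
  have hmem : ∀ k, x k ∈ Metric.closedBall (0 : ℂ × ℂ × ℂ × ℂ × ℂ) 1 := by
    intro k
    rw [mem_closedBall_zero_iff]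
    simp only [hx, Prod.norm_def]
    have e1 := norm_nonneg (α k)
    have e2 := norm_nonneg (β k)
    have e3 := norm_nonneg (c k)
    have e4 := hn k
    have e5 := norm_nonneg (α0 k)
    have e6 := norm_nonneg (β0 k)
    have e7 := hn0 k
    exact max_le (by linarith) (max_le (by linarith) (max_le (by linarith)
      (max_le (by linarith) (by linarith))))
  obtain ⟨y, -, φ, hφ, hy⟩ :=
    (isCompact_closedBall (0 : ℂ × ℂ × ℂ × ℂ × ℂ) 1).tendsto_subseq hmem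
  have y1 := (continuous_fst.tendsto y).comp hy
  have t1 := (continuous_snd.tendsto y).comp hy
  have y2 := (continuous_fst.tendsto y.2).comp t1
  have t2 := (continuous_snd.tendsto y.2).comp t1
  have y3 := (continuous_fst.tendsto y.2.2).comp t2
  have t3 := (continuous_snd.tendsto y.2.2).comp t2
  have y4 := (continuous_fst.tendsto y.2.2.2).comp t3
  have y5 := (continuous_snd.tendsto y.2.2.2).comp t3
  refine ⟨φ, _, _, _, _, _, hφ, y1, y2, y3, y4, y5, ?_⟩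
  have := (y1.norm.add y2.norm).add y3.norm
  refine tendsto_nhds_unique this ?_
  have hc : ∀ k, ‖α (φ k)‖ + ‖β (φ k)‖ + ‖c (φ k)‖ = 1 := fun k => hn (φ k)
  refine Tendsto.congr (fun k => (hc k).symm) tendsto_const_nhds

/-- Passing to a subsequence in the smallness hypotheses. -/
lemma small_comp {g : ℕ → ℝ → ℝ} {φ : ℕ → ℕ} (hφ : StrictMono φ)
    (hs : ∀ ε, 0 < ε → ∃ η1 : ℝ, 0 < η1 ∧ ∀ η, 0 < η → η ≤ η1 → ∀ᶠ j in atTop, g j η ≤ ε) :
    ∀ ε, 0 < ε → ∃ η1 : ℝ, 0 < η1 ∧ ∀ η, 0 < η → η ≤ η1 →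
      ∀ᶠ j in atTop, g (φ j) η ≤ ε := by
  intro ε hε
  obtain ⟨η1, hη1, h⟩ := hs ε hε
  exact ⟨η1, hη1, fun η h0 h1 => hφ.tendsto_atTop.eventually (h η h0 h1)⟩

/-- **S2.lim (i').** Without symmetry mode: the limit point is a zero of the Evans function. -/
theorem Ev_eq_zero_of_match (h : ParSeq l w R lam W Rr L)
    (hn : ∀ k, ‖α k‖ + ‖β k‖ = 1)
    (h1 : ∀ ε, 0 < ε → ∃ η1 : ℝ, 0 < η1 ∧ ∀ η, 0 < η → η ≤ η1 → ∀ᶠ j in atTop,
      ‖α j * F0 d l (W j) (L j) (Rr j + η) + β j * F0s d l (W j) (L j) (Rr j + η)‖ ≤ ε)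
    (h2 : ∀ ε, 0 < ε → ∃ η1 : ℝ, 0 < η1 ∧ ∀ η, 0 < η → η ≤ η1 → ∀ᶠ j in atTop,
      ‖α j * F0' d l (W j) (L j) (Rr j + η) - β j * F0s' d l (W j) (L j) (Rr j + η)‖ ≤ ε) :
    Ev d l w R lam = 0 := by
  obtain ⟨φ, a, b, e, a0, b0, hφ, ha, hb, he, ha0, hb0, hsum⟩ := exists_subseq
    (α := α) (β := β) (c := fun _ => 0) (α0 := fun _ => 0) (β0 := fun _ => 0)
    (fun k => by simpa using hn k) (fun k => by simp)
  have he0 : e = 0 := tendsto_nhds_unique he tendsto_const_nhds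
  subst he0
  have h' := h.subseq hφ
  have h1' := small_comp hφ h1
  have h2' := small_comp hφ h2
  have e1 : mS d l w R lam a b 0 a0 b0 = 0 := by
    refine mS_eq_zero h' h'.hL ha hb he ha0 hb0 ?_
    simpa [nS] using h1'
  have e2 : mT d l w R lam a b 0 a0 b0 = 0 := by
    refine mT_eq_zero h' h'.hL ha hb he ha0 hb0 ?_
    simpa [nT] using h2'
  simp only [mS, mT, zero_mul, add_zero] at e1 e2
  exact alg_det e1 e2 (by
    rintro ⟨rfl, rfl⟩
    simp at hsum)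

/-- Orthogonality of the data at one radius to a nonzero kernel vector. -/
theorem orth_alg {a b a0 b0 A A' B B' : ℂ} (hdet : a * b0 - b * a0 = 0)
    (ho : (a * A) * conj (a0 * A) + (a * A') * conj (a0 * A') + (b * B) * conj (b0 * B) +
      (b * B') * conj (b0 * B') = 0)
    (hA : A ≠ 0 ∨ A' ≠ 0) (hB : B ≠ 0 ∨ B' ≠ 0) (hn0 : ¬ (a0 = 0 ∧ b0 = 0)) :
    a = 0 ∧ b = 0 := by
  set P : ℝ := normSq A + normSq A' with hP
  set Q : ℝ := normSq B + normSq B' with hQ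
  have hPpos : 0 < P := by
    rcases hA with h | h
    · have := normSq_pos.2 h; have := normSq_nonneg A'; rw [hP]; linarith
    · have := normSq_pos.2 h; have := normSq_nonneg A; rw [hP]; linarith
  have hQpos : 0 < Q := by
    rcases hB with h | h
    · have := normSq_pos.2 h; have := normSq_nonneg B'; rw [hQ]; linarith
    · have := normSq_pos.2 h; have := normSq_nonneg B; rw [hQ]; linarith
  have hPc : (P : ℂ) = A * conj A + A' * conj A' := by
    rw [Complex.mul_conj, Complex.mul_conj, hP]; push_cast; ring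
  have hQc : (Q : ℂ) = B * conj B + B' * conj B' := by
    rw [Complex.mul_conj, Complex.mul_conj, hQ]; push_cast; ring
  have ho' : a * conj a0 * P + b * conj b0 * Q = 0 := by
    rw [hPc, hQc]
    simp only [map_mul] at ho
    linear_combination ho
  set T : ℝ := normSq a0 * P + normSq b0 * Q with hT
  have hTpos : 0 < T := by
    by_cases h1 : a0 = 0
    · have h2 : b0 ≠ 0 := fun h2 => hn0 ⟨h1, h2⟩
      have := mul_pos (normSq_pos.2 h2) hQpos
      have := mul_nonneg (normSq_nonneg a0) hPpos.le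
      rw [hT]; linarith
    · have := mul_pos (normSq_pos.2 h1) hPpos
      have := mul_nonneg (normSq_nonneg b0) hQpos.le
      rw [hT]; linarith
  have hTc : (T : ℂ) = a0 * conj a0 * P + b0 * conj b0 * Q := by
    rw [Complex.mul_conj, Complex.mul_conj, hT]; push_cast; ring
  have hTne : (T : ℂ) ≠ 0 := by exact_mod_cast hTpos.ne'
  constructor
  · have : (T : ℂ) * a = 0 := by
      rw [hTc]; linear_combination a0 * ho' + conj b0 * Q * hdet
    exact (mul_eq_zero.1 this).resolve_left hTne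
  · have : (T : ℂ) * b = 0 := by
      rw [hTc]; linear_combination b0 * ho' - conj a0 * P * hdet
    exact (mul_eq_zero.1 this).resolve_left hTne

/-- **S2.lim (ii), general form.** `X1 .. X4` are the data of the second (generalised) eigenpair
at the radius `R1`, `Y1 .. Y4` those of the symmetry mode. -/
theorem false_of_match_data (h : ParSeq l w R lam W Rr L) (h0 : Tendsto L0 atTop (𝓝 lam))
    (hn : ∀ k, ‖α k‖ + ‖β k‖ + ‖c k‖ = 1) (hn0 : ∀ k, ‖α0 k‖ + ‖β0 k‖ = 1)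
    (h1 : ∀ ε, 0 < ε → ∃ η1 : ℝ, 0 < η1 ∧ ∀ η, 0 < η → η ≤ η1 → ∀ᶠ j in atTop,
      ‖nS d l (W j) (Rr j + η) (L0 j) (L j) (α j) (β j) (c j) (α0 j) (β0 j)‖ ≤ ε)
    (h2 : ∀ ε, 0 < ε → ∃ η1 : ℝ, 0 < η1 ∧ ∀ η, 0 < η → η ≤ η1 → ∀ᶠ j in atTop,
      ‖nT d l (W j) (Rr j + η) (L0 j) (L j) (α j) (β j) (c j) (α0 j) (β0 j)‖ ≤ ε)
    (h01 : ∀ ε, 0 < ε → ∃ η1 : ℝ, 0 < η1 ∧ ∀ η, 0 < η → η ≤ η1 → ∀ᶠ j in atTop,
      ‖α0 j * F0 d l (W j) (L0 j) (Rr j + η) + β0 j * F0s d l (W j) (L0 j) (Rr j + η)‖ ≤ ε)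
    (h02 : ∀ ε, 0 < ε → ∃ η1 : ℝ, 0 < η1 ∧ ∀ η, 0 < η → η ≤ η1 → ∀ᶠ j in atTop,
      ‖α0 j * F0' d l (W j) (L0 j) (Rr j + η) - β0 j * F0s' d l (W j) (L0 j) (Rr j + η)‖ ≤ ε)
    {R1 : ℝ} (hR1 : 0 < R1) {X1 X2 X3 X4 Y1 Y2 Y3 Y4 : ℕ → ℂ}
    (hX1 : Tendsto (fun j => X1 j - (α j * F0 d l (W j) (L j) R1 +
      c j * (α0 j * sF0 d l (W j) (L0 j) (L j) R1))) atTop (𝓝 0))
    (hX2 : Tendsto (fun j => X2 j - (α j * F0' d l (W j) (L j) R1 +
      c j * (α0 j * sF0' d l (W j) (L0 j) (L j) R1))) atTop (𝓝 0))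
    (hX3 : Tendsto (fun j => X3 j - (β j * F0s d l (W j) (L j) R1 +
      c j * (β0 j * sF0s d l (W j) (L0 j) (L j) R1))) atTop (𝓝 0))
    (hX4 : Tendsto (fun j => X4 j - (β j * F0s' d l (W j) (L j) R1 +
      c j * (β0 j * sF0s' d l (W j) (L0 j) (L j) R1))) atTop (𝓝 0))
    (hY1 : Tendsto (fun j => Y1 j - α0 j * F0 d l (W j) (L0 j) R1) atTop (𝓝 0))
    (hY2 : Tendsto (fun j => Y2 j - α0 j * F0' d l (W j) (L0 j) R1) atTop (𝓝 0))
    (hY3 : Tendsto (fun j => Y3 j - β0 j * F0s d l (W j) (L0 j) R1) atTop (𝓝 0))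
    (hY4 : Tendsto (fun j => Y4 j - β0 j * F0s' d l (W j) (L0 j) R1) atTop (𝓝 0))
    (horth : Tendsto (fun j => X1 j * conj (Y1 j) + X2 j * conj (Y2 j) + X3 j * conj (Y3 j) +
      X4 j * conj (Y4 j)) atTop (𝓝 0))
    (hE' : Ev d l w R lam = 0 → deriv (Ev d l w R) lam ≠ 0) : False := by
  obtain ⟨φ, a, b, e, a0, b0, hφ, ha, hb, he, ha0, hb0, hsum⟩ :=
    exists_subseq hn (fun k => (hn0 k).le)
  have hφt := hφ.tendsto_atTop
  have hsum0 : ‖a0‖ + ‖b0‖ = 1 := by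
    refine tendsto_nhds_unique (ha0.norm.add hb0.norm) ?_
    have hc : ∀ k, ‖α0 (φ k)‖ + ‖β0 (φ k)‖ = 1 := fun k => hn0 (φ k)
    exact Tendsto.congr (fun k => (hc k).symm) tendsto_const_nhds
  have hab0 : ¬ (a0 = 0 ∧ b0 = 0) := by
    rintro ⟨rfl, rfl⟩
    simp at hsum0
  have h' := h.subseq hφ
  have h0' : Tendsto (L0 ∘ φ) atTop (𝓝 lam) := h0.comp hφt
  have hp0 : ParSeq l w R lam (W ∘ φ) (Rr ∘ φ) (L0 ∘ φ) := ⟨h.hlam, h.hR, h'.hW, h'.hRr, h0'⟩
  have e1 : mS d l w R lam a b e a0 b0 = 0 :=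
    mS_eq_zero h' h0' ha hb he ha0 hb0 (small_comp hφ h1)
  have e2 : mT d l w R lam a b e a0 b0 = 0 :=
    mT_eq_zero h' h0' ha hb he ha0 hb0 (small_comp hφ h2)
  have z0 : Tendsto (fun _ : ℕ => (0 : ℂ)) atTop (𝓝 0) := tendsto_const_nhds
  have e01 : mS d l w R lam a0 b0 0 0 0 = 0 := by
    refine mS_eq_zero hp0 h0' ha0 hb0 z0 z0 z0 ?_
    simpa [nS] using small_comp hφ h01
  have e02 : mT d l w R lam a0 b0 0 0 0 = 0 := by
    refine mT_eq_zero hp0 h0' ha0 hb0 z0 z0 z0 ?_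
    simpa [nT] using small_comp hφ h02
  simp only [mS, mT, zero_mul, add_zero] at e01 e02
  have hEv : Ev d l w R lam = 0 := alg_det e01 e02 hab0
  by_cases hc : e = 0
  · subst hc
    simp only [mS, mT, zero_mul, add_zero] at e1 e2
    have hdet : a * b0 - b * a0 = 0 := by
      by_contra hdet
      obtain ⟨f1, f2⟩ := alg_indep e01 e02 e1 e2 hdet
      rcases F0_ne_or (d := d) (w := w) h.hlam h.hR with hh | hh
      · exact hh f1
      · exact hh f2
    -- limits of the data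
    have q : ParSeq l w R1 lam (W ∘ φ) (fun _ => R1) (L ∘ φ) :=
      ⟨h.hlam, hR1, h'.hW, tendsto_const_nhds, h'.hL⟩
    have q0 : ParSeq l w R1 lam (W ∘ φ) (fun _ => R1) (L0 ∘ φ) :=
      ⟨h.hlam, hR1, h'.hW, tendsto_const_nhds, h0'⟩
    have k1 : Tendsto (X1 ∘ φ) atTop (𝓝 (a * F0 d l w lam R1)) := by
      have := (hX1.comp hφt).add ((ha.mul (q.F0 (d := d))).add
        (he.mul (ha0.mul (q.sF0 (d := d) h0'))))
      simp only [zero_mul, add_zero, zero_add] at this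
      refine this.congr fun k => ?_
      simp only [Function.comp_apply]; ring
    have k2 : Tendsto (X2 ∘ φ) atTop (𝓝 (a * F0' d l w lam R1)) := by
      have := (hX2.comp hφt).add ((ha.mul (q.F0' (d := d))).add
        (he.mul (ha0.mul (q.sF0' (d := d) h0'))))
      simp only [zero_mul, add_zero, zero_add] at this
      refine this.congr fun k => ?_
      simp only [Function.comp_apply]; ring
    have k3 : Tendsto (X3 ∘ φ) atTop (𝓝 (b * F0s d l w lam R1)) := by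
      have := (hX3.comp hφt).add ((hb.mul (q.F0s (d := d))).add
        (he.mul (hb0.mul (q.sF0s (d := d) h0'))))
      simp only [zero_mul, add_zero, zero_add] at this
      refine this.congr fun k => ?_
      simp only [Function.comp_apply]; ring
    have k4 : Tendsto (X4 ∘ φ) atTop (𝓝 (b * F0s' d l w lam R1)) := by
      have := (hX4.comp hφt).add ((hb.mul (q.F0s' (d := d))).add
        (he.mul (hb0.mul (q.sF0s' (d := d) h0'))))
      simp only [zero_mul, add_zero, zero_add] at this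
      refine this.congr fun k => ?_
      simp only [Function.comp_apply]; ring
    have m1 : Tendsto (Y1 ∘ φ) atTop (𝓝 (a0 * F0 d l w lam R1)) := by
      have := (hY1.comp hφt).add (ha0.mul (q0.F0 (d := d)))
      simp only [zero_add] at this
      refine this.congr fun k => ?_
      simp only [Function.comp_apply]; ring
    have m2 : Tendsto (Y2 ∘ φ) atTop (𝓝 (a0 * F0' d l w lam R1)) := by
      have := (hY2.comp hφt).add (ha0.mul (q0.F0' (d := d)))
      simp only [zero_add] at this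
      refine this.congr fun k => ?_
      simp only [Function.comp_apply]; ring
    have m3 : Tendsto (Y3 ∘ φ) atTop (𝓝 (b0 * F0s d l w lam R1)) := by
      have := (hY3.comp hφt).add (hb0.mul (q0.F0s (d := d)))
      simp only [zero_add] at this
      refine this.congr fun k => ?_
      simp only [Function.comp_apply]; ring
    have m4 : Tendsto (Y4 ∘ φ) atTop (𝓝 (b0 * F0s' d l w lam R1)) := by
      have := (hY4.comp hφt).add (hb0.mul (q0.F0s' (d := d)))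
      simp only [zero_add] at this
      refine this.congr fun k => ?_
      simp only [Function.comp_apply]; ring
    have cj : ∀ {u : ℕ → ℂ} {v : ℂ}, Tendsto u atTop (𝓝 v) →
        Tendsto (fun k => conj (u k)) atTop (𝓝 (conj v)) := fun hu =>
      (Complex.continuous_conj.tendsto _).comp hu
    have ho : (a * F0 d l w lam R1) * conj (a0 * F0 d l w lam R1) +
        (a * F0' d l w lam R1) * conj (a0 * F0' d l w lam R1) +
        (b * F0s d l w lam R1) * conj (b0 * F0s d l w lam R1) +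
        (b * F0s' d l w lam R1) * conj (b0 * F0s' d l w lam R1) = 0 :=
      tendsto_nhds_unique
        ((((k1.mul (cj m1)).add (k2.mul (cj m2))).add (k3.mul (cj m3))).add (k4.mul (cj m4)))
        (horth.comp hφt)
    obtain ⟨ra, rb⟩ := orth_alg hdet ho (F0_ne_or (d := d) (w := w) h.hlam hR1)
      (F0s_ne_or (d := d) (w := w) h.hlam hR1) hab0
    rw [ra, rb] at hsum
    simp at hsum
  · apply hE' hEv
    rw [deriv_Ev h.hlam h.hR]
    exact alg_double e01 e02 hab0 e1 e2 hc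

/-- **S2.lim (ii).** The data at `R1` are given by the exterior formulas. -/
theorem false_of_match (h : ParSeq l w R lam W Rr L) (h0 : Tendsto L0 atTop (𝓝 lam))
    (hn : ∀ k, ‖α k‖ + ‖β k‖ + ‖c k‖ = 1) (hn0 : ∀ k, ‖α0 k‖ + ‖β0 k‖ = 1)
    (h1 : ∀ ε, 0 < ε → ∃ η1 : ℝ, 0 < η1 ∧ ∀ η, 0 < η → η ≤ η1 → ∀ᶠ j in atTop,
      ‖nS d l (W j) (Rr j + η) (L0 j) (L j) (α j) (β j) (c j) (α0 j) (β0 j)‖ ≤ ε)
    (h2 : ∀ ε, 0 < ε → ∃ η1 : ℝ, 0 < η1 ∧ ∀ η, 0 < η → η ≤ η1 → ∀ᶠ j in atTop,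
      ‖nT d l (W j) (Rr j + η) (L0 j) (L j) (α j) (β j) (c j) (α0 j) (β0 j)‖ ≤ ε)
    (h01 : ∀ ε, 0 < ε → ∃ η1 : ℝ, 0 < η1 ∧ ∀ η, 0 < η → η ≤ η1 → ∀ᶠ j in atTop,
      ‖α0 j * F0 d l (W j) (L0 j) (Rr j + η) + β0 j * F0s d l (W j) (L0 j) (Rr j + η)‖ ≤ ε)
    (h02 : ∀ ε, 0 < ε → ∃ η1 : ℝ, 0 < η1 ∧ ∀ η, 0 < η → η ≤ η1 → ∀ᶠ j in atTop,
      ‖α0 j * F0' d l (W j) (L0 j) (Rr j + η) - β0 j * F0s' d l (W j) (L0 j) (Rr j + η)‖ ≤ ε)
    {R1 : ℝ} (hR1 : 0 < R1)
    (horth : Tendsto (fun j =>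
      (α j * F0 d l (W j) (L j) R1 + c j * (α0 j * sF0 d l (W j) (L0 j) (L j) R1)) *
        conj (α0 j * F0 d l (W j) (L0 j) R1) +
      (α j * F0' d l (W j) (L j) R1 + c j * (α0 j * sF0' d l (W j) (L0 j) (L j) R1)) *
        conj (α0 j * F0' d l (W j) (L0 j) R1) +
      (β j * F0s d l (W j) (L j) R1 + c j * (β0 j * sF0s d l (W j) (L0 j) (L j) R1)) *
        conj (β0 j * F0s d l (W j) (L0 j) R1) +
      (β j * F0s' d l (W j) (L j) R1 + c j * (β0 j * sF0s' d l (W j) (L0 j) (L j) R1)) *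
        conj (β0 j * F0s' d l (W j) (L0 j) R1)) atTop (𝓝 0))
    (hE' : Ev d l w R lam = 0 → deriv (Ev d l w R) lam ≠ 0) : False := by
  refine false_of_match_data h h0 hn hn0 h1 h2 h01 h02 hR1 ?_ ?_ ?_ ?_ ?_ ?_ ?_ ?_ horth hE' <;>
    simp only [sub_self] <;> exact tendsto_const_nhds

end limit

end Vale.Agent.P139.H694
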