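import Vale.Agent.P139.H311.S2Spec
import Vale.Agent.P139.H700.Seq
import Vale.Agent.P139.H700.Viol
import Vale.Agent.P139.H694.SB4M

/-!
# [S2.glue]: key estimate + exterior description + reduction + limit argument give `S2Out`
-/

noncomputable section

open scoped ComplexConjugate ContDiff Topology
open Complex Filter Set MeasureTheory

namespace Vale.Agent.P139.H694

open Vale.Agent.P139.BU Vale.Agent.P139.KU Vale.Agent.P139.H311 Vale.Agent.P139.H700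

/-- The spectral certificate at the hard wall. -/
structure CertGood (d : ℕ) (w R : ℝ) : Prop where
  ne : ∀ (l : ℕ) (lam : ℂ), 0 ≤ lam.re → ¬ SymV l lam → Ev d l w R lam ≠ 0
  simple : ∀ (l : ℕ) (lam : ℂ), SymV l lam → deriv (Ev d l w R) lam ≠ 0

/-- Conclusion of the key estimate for one pair, at the radius `ρ`. -/
structure KeyOut (d l : ℕ) (w ρ b : ℝ) (x x0 α β α0 β0 c : ℂ) (F G φ γ : ℝ → ℂ)
    (Cs ε : ℝ) : Prop where
  nφ : nrm d b φ γ ≤ Cs * (‖α0‖ + ‖β0‖)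
  nF : nrm d b F G ≤ Cs * (‖α‖ + ‖β‖ + ‖c‖ * (‖α0‖ + ‖β0‖))
  s : ‖extF d l w x x0 α α0 c ρ + extG d l w x x0 β β0 c ρ‖ ≤
    ε * (‖α‖ + ‖β‖ + ‖c‖ * (‖α0‖ + ‖β0‖))
  t : ‖extF' d l w x x0 α α0 c ρ - extG' d l w x x0 β β0 c ρ‖ ≤
    ε * (‖α‖ + ‖β‖ + ‖c‖ * (‖α0‖ + ‖β0‖))
  s0 : ‖α0 * F0 d l w x0 ρ + β0 * F0s d l w x0 ρ‖ ≤ ε * (‖α0‖ + ‖β0‖)
  t0 : ‖α0 * F0' d l w x0 ρ - β0 * F0s' d l w x0 ρ‖ ≤ ε * (‖α0‖ + ‖β0‖)

/-- The key estimate (helper311, `Key.lean`). -/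
def KeyStmt (d : ℕ) (w R : ℕ → ℝ) (q : ℕ → ℝ → ℂ) (b : ℝ) (l : ℕ) (L0 : ℝ) : Prop :=
  ∃ Cs : ℝ, 0 < Cs ∧ ∀ ε : ℝ, 0 < ε → ∃ η0 : ℝ, 0 < η0 ∧ ∀ η : ℝ, 0 < η → η ≤ η0 →
    ∃ m1 : ℕ, ∃ ε' : ℝ, 0 < ε' ∧ ∀ m, m1 ≤ m → ∀ K, 2 ≤ K → ∀ lam lam0 : ℂ,
    0 ≤ lam.re → 0 ≤ lam0.re → ‖lam‖ ≤ L0 → ‖lam0‖ ≤ L0 →
    ∀ (F G φ γ : ℝ → ℂ) (c : ℂ), RadAdm K F → RadAdm K G → RadAdm K φ → RadAdm K γ →
    RSol d m l (w m) (q m) lam0 0 φ γ φ γ → RSol d m l (w m) (q m) lam c F G φ γ →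
    ∀ α β α0 β0 : ℂ,
    ExtClose d l (w m) (lam0 + aa m) (lam0 + aa m) α0 β0 0 0 0 φ γ (Icc (R m + η) b)
      (ε' * nrm d b φ γ) →
    ExtClose d l (w m) (lam + aa m) (lam0 + aa m) α β α0 β0 c F G (Icc (R m + η) b)
      (ε' * (nrm d b F G + ‖c‖ * nrm d b φ γ)) →
    KeyOut d l (w m) (R m + η) b (lam + aa m) (lam0 + aa m) α β α0 β0 c F G φ γ Cs ε

/-- Violation away from the symmetry values: a nonzero eigenpair. -/
def ViolA (d m K l : ℕ) (w : ℝ) (q : ℝ → ℂ) (b : ℝ) (lam : ℂ) : Prop :=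
  ∃ F G : ℝ → ℂ, RadAdm K F ∧ RadAdm K G ∧ RSol d m l w q lam 0 F G 0 0 ∧ 0 < nrm d b F G

/-- Violation near the symmetry value `lam0`: a generalised eigenpair with source `c (φ,γ)`,
orthogonal to the symmetry mode `(φ,γ)`. -/
def ViolB (d m K l : ℕ) (w : ℝ) (q : ℝ → ℂ) (b : ℝ) (lam lam0 : ℂ) : Prop :=
  ∃ (F G φ γ : ℝ → ℂ) (c : ℂ), RadAdm K F ∧ RadAdm K G ∧ RadAdm K φ ∧ RadAdm K γ ∧
    RSol d m l w q lam0 0 φ γ φ γ ∧ RSol d m l w q lam c F G φ γ ∧ 0 < nrm d b φ γ ∧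
    (c = 0 → 0 < nrm d b F G) ∧ ip l b F G φ γ = 0

lemma extClose_mono {d l : ℕ} {w : ℝ} {x x0 α β α0 β0 c : ℂ} {F G : ℝ → ℂ} {s s' : Set ℝ}
    {δ δ' : ℝ} (h : ExtClose d l w x x0 α β α0 β0 c F G s δ) (hs : s' ⊆ s) (hδ : δ ≤ δ') :
    ExtClose d l w x x0 α β α0 β0 c F G s' δ' :=
  ⟨fun r hr => (h.f0 r (hs hr)).trans hδ, fun r hr => (h.f1 r (hs hr)).trans hδ,
    fun r hr => (h.g0 r (hs hr)).trans hδ, fun r hr => (h.g1 r (hs hr)).trans hδ⟩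

lemma nrm_nonneg (d : ℕ) (b : ℝ) (F G : ℝ → ℂ) : 0 ≤ nrm d b F G := Real.sqrt_nonneg _

/-- Extraction of a subsequence with exterior coefficients good at all scales. -/
theorem extraction {d l : ℕ} {K : ℕ → ℕ} {w R : ℕ → ℝ} {q : ℕ → ℝ → ℂ} {b : ℝ} {m0 : ℕ}
    (hExt : Ext d K w R q b) {L0 : ℝ} (hKey : KeyStmt d w R q b l L0) (hK : ∀ m, 2 ≤ K m)
    (hb : ∀ m, m0 ≤ m → R m + 1 ≤ b) {p : ℕ → ℕ} (hp : StrictMono p) (hp0 : ∀ j, m0 ≤ p j)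
    {lam : ℕ → ℂ} (hre : ∀ j, 0 ≤ (lam j).re) (hL : ∀ᶠ j in atTop, ‖lam j‖ ≤ L0)
    {lam0 : ℂ} (hre0 : 0 ≤ lam0.re) (hL0 : ‖lam0‖ ≤ L0)
    {F G φ γ : ℕ → ℝ → ℂ} {c : ℕ → ℂ}
    (aF : ∀ j, RadAdm (K (p j)) (F j)) (aG : ∀ j, RadAdm (K (p j)) (G j))
    (aφ : ∀ j, RadAdm (K (p j)) (φ j)) (aγ : ∀ j, RadAdm (K (p j)) (γ j))
    (s0 : ∀ j, RSol d (p j) l (w (p j)) (q (p j)) lam0 0 (φ j) (γ j) (φ j) (γ j))
    (s1 : ∀ j, RSol d (p j) l (w (p j)) (q (p j)) (lam j) (c j) (F j) (G j) (φ j) (γ j)) :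
    ∃ ψ : ℕ → ℕ, StrictMono ψ ∧ ∃ Cs : ℝ, 0 < Cs ∧ ∃ α β α0 β0 : ℕ → ℂ,
      (∀ k, nrm d b (φ (ψ k)) (γ (ψ k)) ≤ Cs * (‖α0 k‖ + ‖β0 k‖)) ∧
      (∀ k, nrm d b (F (ψ k)) (G (ψ k)) ≤
        Cs * (‖α k‖ + ‖β k‖ + ‖c (ψ k)‖ * (‖α0 k‖ + ‖β0 k‖))) ∧
      (∀ k : ℕ, ExtClose d l (w (p (ψ k))) (lam0 + aa (p (ψ k))) (lam0 + aa (p (ψ k)))
        (α0 k) (β0 k) 0 0 0 (φ (ψ k)) (γ (ψ k)) {b}
        (1 / ((k : ℝ) + 1) * nrm d b (φ (ψ k)) (γ (ψ k)))) ∧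
      (∀ k : ℕ, ExtClose d l (w (p (ψ k))) (lam (ψ k) + aa (p (ψ k))) (lam0 + aa (p (ψ k)))
        (α k) (β k) (α0 k) (β0 k) (c (ψ k)) (F (ψ k)) (G (ψ k)) {b}
        (1 / ((k : ℝ) + 1) *
          (nrm d b (F (ψ k)) (G (ψ k)) + ‖c (ψ k)‖ * nrm d b (φ (ψ k)) (γ (ψ k))))) ∧
      (∀ ε : ℝ, 0 < ε → ∃ η1 : ℝ, 0 < η1 ∧ ∀ η : ℝ, 0 < η → η ≤ η1 → ∀ᶠ k in atTop,
        KeyOut d l (w (p (ψ k))) (R (p (ψ k)) + η) b (lam (ψ k) + aa (p (ψ k)))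
          (lam0 + aa (p (ψ k))) (α k) (β k) (α0 k) (β0 k) (c (ψ k)) (F (ψ k)) (G (ψ k))
          (φ (ψ k)) (γ (ψ k)) Cs ε) := by
  obtain ⟨Cs, hCs, hkey⟩ := hKey
  obtain ⟨ηs, hηs, hkey1⟩ := hkey 1 one_pos
  obtain ⟨ms, εs, hεs, hkey2⟩ := hkey1 ηs hηs le_rfl
  set δ : ℕ → ℝ := fun k => 1 / ((k : ℝ) + 1) with hδ
  have hδ0 : ∀ k, 0 < δ k := fun k => by rw [hδ]; positivity
  have hδ1 : ∀ k, δ k ≤ 1 := fun k => by
    rw [hδ]; exact div_le_one_of_le₀ (by linarith [Nat.cast_nonneg (α := ℝ) k]) (by positivity)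
  have hδt : Tendsto δ atTop (𝓝 0) := tendsto_one_div_add_atTop_nhds_zero_nat
  set ηk : ℕ → ℝ := fun k => min (δ k) ηs with hηk
  set εk : ℕ → ℝ := fun k => min (δ k) εs with hεk
  have hηk0 : ∀ k, 0 < ηk k := fun k => lt_min (hδ0 k) hηs
  have hεk0 : ∀ k, 0 < εk k := fun k => lt_min (hδ0 k) hεs
  choose M hM using fun k => hExt l L0 (ηk k) (εk k) (hηk0 k) (hεk0 k)
  have hpt := hp.tendsto_atTop
  obtain ⟨ψ, hψ, hP⟩ := extraction_forall_of_eventually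
    (P := fun k j => M k ≤ p j ∧ ms ≤ p j ∧ ‖lam j‖ ≤ L0) (fun k =>
      (hpt.eventually_ge_atTop (M k)).and ((hpt.eventually_ge_atTop ms).and hL))
  choose α β α0 β0 hcl0 hcl using fun k => hM k (p (ψ k)) (hP k).1 (lam (ψ k)) lam0 (hre _) hre0
    (hP k).2.2 hL0 (F (ψ k)) (G (ψ k)) (φ (ψ k)) (γ (ψ k)) (c (ψ k)) (aF _) (aG _) (aφ _) (aγ _)
    (s0 _) (s1 _)
  have hnn : ∀ k, 0 ≤ nrm d b (F (ψ k)) (G (ψ k)) + ‖c (ψ k)‖ * nrm d b (φ (ψ k)) (γ (ψ k)) :=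
    fun k => add_nonneg (nrm_nonneg _ _ _ _) (mul_nonneg (norm_nonneg _) (nrm_nonneg _ _ _ _))
  -- general application of the key estimate
  have happ : ∀ {ε η ε' : ℝ} {m1 : ℕ}, (∀ m, m1 ≤ m → ∀ K, 2 ≤ K → ∀ lam lam0 : ℂ,
      0 ≤ lam.re → 0 ≤ lam0.re → ‖lam‖ ≤ L0 → ‖lam0‖ ≤ L0 →
      ∀ (F G φ γ : ℝ → ℂ) (c : ℂ), RadAdm K F → RadAdm K G → RadAdm K φ → RadAdm K γ →
      RSol d m l (w m) (q m) lam0 0 φ γ φ γ → RSol d m l (w m) (q m) lam c F G φ γ →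
      ∀ α β α0 β0 : ℂ,
      ExtClose d l (w m) (lam0 + aa m) (lam0 + aa m) α0 β0 0 0 0 φ γ (Icc (R m + η) b)
        (ε' * nrm d b φ γ) →
      ExtClose d l (w m) (lam + aa m) (lam0 + aa m) α β α0 β0 c F G (Icc (R m + η) b)
        (ε' * (nrm d b F G + ‖c‖ * nrm d b φ γ)) →
      KeyOut d l (w m) (R m + η) b (lam + aa m) (lam0 + aa m) α β α0 β0 c F G φ γ Cs ε) →
      ∀ k, m1 ≤ p (ψ k) → ηk k ≤ η → εk k ≤ ε' →
      KeyOut d l (w (p (ψ k))) (R (p (ψ k)) + η) b (lam (ψ k) + aa (p (ψ k)))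
          (lam0 + aa (p (ψ k))) (α k) (β k) (α0 k) (β0 k) (c (ψ k)) (F (ψ k)) (G (ψ k))
          (φ (ψ k)) (γ (ψ k)) Cs ε := by
    intro ε η ε' m1 hk k h1 h2 h3
    have hsub : Icc (R (p (ψ k)) + η) b ⊆ Icc (R (p (ψ k)) + ηk k) b :=
      Icc_subset_Icc_left (by linarith)
    exact hk _ h1 _ (hK _) _ _ (hre _) hre0 (hP k).2.2 hL0 _ _ _ _ _ (aF _) (aG _) (aφ _) (aγ _)
      (s0 _) (s1 _) _ _ _ _
      (extClose_mono (hcl0 k) hsub (mul_le_mul_of_nonneg_right h3 (nrm_nonneg _ _ _ _)))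
      (extClose_mono (hcl k) hsub (mul_le_mul_of_nonneg_right h3 (hnn k)))
  have hone : ∀ k, KeyOut d l (w (p (ψ k))) (R (p (ψ k)) + ηs) b (lam (ψ k) + aa (p (ψ k)))
          (lam0 + aa (p (ψ k))) (α k) (β k) (α0 k) (β0 k) (c (ψ k)) (F (ψ k)) (G (ψ k))
          (φ (ψ k)) (γ (ψ k)) Cs 1 := fun k =>
    happ hkey2 k (hP k).2.1 (min_le_right _ _) (min_le_right _ _)
  have hbmem : ∀ k, ({b} : Set ℝ) ⊆ Icc (R (p (ψ k)) + ηk k) b := by
    intro k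
    rw [singleton_subset_iff]
    refine ⟨?_, le_rfl⟩
    have h1 := hb _ (hp0 (ψ k))
    have h2 : ηk k ≤ 1 := (min_le_left _ _).trans (hδ1 k)
    linarith
  refine ⟨ψ, hψ, Cs, hCs, α, β, α0, β0, fun k => (hone k).nφ, fun k => (hone k).nF,
    fun k => extClose_mono (hcl0 k) (hbmem k) ?_, fun k => extClose_mono (hcl k) (hbmem k) ?_, ?_⟩
  · exact mul_le_mul_of_nonneg_right (min_le_left _ _) (nrm_nonneg _ _ _ _)
  · exact mul_le_mul_of_nonneg_right (min_le_left _ _) (hnn k)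
  · intro ε hε
    obtain ⟨η0, hη0, h1⟩ := hkey ε hε
    refine ⟨η0, hη0, fun η hη hle => ?_⟩
    obtain ⟨m1, ε', hε', h2⟩ := h1 η hη hle
    have e1 : ∀ᶠ k in atTop, m1 ≤ p (ψ k) := (hpt.comp hψ.tendsto_atTop).eventually_ge_atTop m1
    have e2 : ∀ᶠ k in atTop, δ k < η := hδt.eventually (gt_mem_nhds hη)
    have e3 : ∀ᶠ k in atTop, δ k < ε' := hδt.eventually (gt_mem_nhds hε')
    filter_upwards [e1, e2, e3] with k k1 k2 k3
    exact happ h2 k k1 ((min_le_left _ _).trans k2.le) ((min_le_left _ _).trans k3.le)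

lemma tendsto_aa {p : ℕ → ℕ} (hp : Tendsto p atTop atTop) :
    Tendsto (fun k => ((aa (p k) : ℝ) : ℂ)) atTop (𝓝 0) := by
  have h1 : Tendsto (fun m : ℕ => aa m) atTop (𝓝 0) := by
    have h2 : Tendsto (fun m : ℕ => (2 : ℝ) * (m : ℝ)) atTop atTop :=
      tendsto_natCast_atTop_atTop.const_mul_atTop two_pos
    have := h2.inv_tendsto_atTop
    refine this.congr fun m => ?_
    simp [aa]
  have := (Complex.continuous_ofReal.tendsto 0).comp (h1.comp hp)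
  rw [Complex.ofReal_zero] at this
  exact this

/-- Algebra of the normalisation, first relation. -/
lemma nS_div {d l : ℕ} {w r : ℝ} {x0 x α β c α0 β0 S a : ℂ} (hS : S ≠ 0) (ha : a ≠ 0) :
    nS d l w r x0 x (α / S) (β / S) (c * a / S) (α0 / a) (β0 / a) =
      (extF d l w x x0 α α0 c r + extG d l w x x0 β β0 c r) / S := by
  simp only [nS, extF, extG, sF0, sF0s]
  field_simp
  ring

/-- Algebra of the normalisation, second relation. -/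
lemma nT_div {d l : ℕ} {w r : ℝ} {x0 x α β c α0 β0 S a : ℂ} (hS : S ≠ 0) (ha : a ≠ 0) :
    nT d l w r x0 x (α / S) (β / S) (c * a / S) (α0 / a) (β0 / a) =
      (extF' d l w x x0 α α0 c r - extG' d l w x x0 β β0 c r) / S := by
  simp only [nT, extF', extG', sF0', sF0s']
  field_simp
  ring

/-- Case A: no symmetry value. -/
theorem ev_zero_of_seq {d l : ℕ} {K : ℕ → ℕ} {w R : ℕ → ℝ} {q : ℕ → ℝ → ℂ} {b : ℝ} {m0 : ℕ}
    (hExt : Ext d K w R q b) (hKey : ∀ L0, KeyStmt d w R q b l L0) (hK : ∀ m, 2 ≤ K m)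
    (hb : ∀ m, m0 ≤ m → R m + 1 ≤ b) {p : ℕ → ℕ} (hp : StrictMono p) (hp0 : ∀ j, m0 ≤ p j)
    {lam : ℕ → ℂ} (hre : ∀ j, 0 ≤ (lam j).re) {lamI : ℂ} (hlam : Tendsto lam atTop (𝓝 lamI))
    {w0 R0 : ℝ} (hw : Tendsto (fun j => w (p j)) atTop (𝓝 w0))
    (hR : Tendsto (fun j => R (p j)) atTop (𝓝 R0)) (hR0 : 0 < R0)
    (hV : ∀ j, ViolA d (p j) (K (p j)) l (w (p j)) (q (p j)) b (lam j)) :
    Ev d l w0 R0 lamI = 0 := by
  choose F G aF aG hsol hpos using hV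
  have hadm0 : ∀ K : ℕ, RadAdm K (0 : ℝ → ℂ) := fun K =>
    ⟨contDiffOn_const, ⟨0, fun r _ => by simp⟩, fun k _ => ⟨0, fun r _ => by
      have : (0 : ℝ → ℂ) = fun _ => (0 : ℂ) := rfl
      rw [this, iteratedDeriv_const]
      split_ifs <;> simp⟩⟩
  have hs0 : ∀ j, RSol d (p j) l (w (p j)) (q (p j)) 0 0 (0 : ℝ → ℂ) 0 0 0 := by
    intro j
    have hd : deriv (0 : ℝ → ℂ) = 0 := by
      funext r
      exact deriv_const r (0 : ℂ)
    constructor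
    · intro r _
      simp [RL1, lapl, hd]
    · intro r _
      simp [RL2, lapl, hd]
  have hI : 0 ≤ lamI.re :=
    ge_of_tendsto' ((Complex.continuous_re.tendsto _).comp hlam) hre
  have hbd : ∀ᶠ j in atTop, ‖lam j‖ ≤ ‖lamI‖ + 1 := by
    have := hlam.norm.eventually (gt_mem_nhds (show ‖lamI‖ < ‖lamI‖ + 1 by linarith))
    filter_upwards [this] with j hj using hj.le
  obtain ⟨ψ, hψ, Cs, hCs, α, β, α0, β0, n1, n2, c1, c2, hk⟩ := extraction hExt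
    (hKey (‖lamI‖ + 1)) hK hb hp hp0 hre hbd (lam0 := 0) (by simp)
    (by rw [norm_zero]; positivity)
    (F := F) (G := G) (φ := fun _ => 0) (γ := fun _ => 0) (c := fun _ => 0)
    aF aG (fun j => hadm0 _) (fun j => hadm0 _) hs0 hsol
  simp only [norm_zero, zero_mul, add_zero] at n2
  set S : ℕ → ℝ := fun k => ‖α k‖ + ‖β k‖ with hSdef
  have hSpos : ∀ k, 0 < S k := by
    intro k
    have h1 := (hpos (ψ k)).trans_le (n2 k)
    by_contra hcon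
    have : Cs * S k ≤ 0 := mul_nonpos_of_nonneg_of_nonpos hCs.le (not_lt.1 hcon)
    exact absurd h1 (not_lt.2 this)
  have hSne : ∀ k, ((S k : ℝ) : ℂ) ≠ 0 := fun k => by exact_mod_cast (hSpos k).ne'
  have hSn : ∀ k, ‖((S k : ℝ) : ℂ)‖ = S k := fun k => by
    rw [Complex.norm_real, Real.norm_eq_abs, abs_of_pos (hSpos k)]
  have hpψ : Tendsto (fun k => p (ψ k)) atTop atTop := hp.tendsto_atTop.comp hψ.tendsto_atTop
  have hL : Tendsto (fun k => lam (ψ k) + ((aa (p (ψ k)) : ℝ) : ℂ)) atTop (𝓝 lamI) := by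
    have := (hlam.comp hψ.tendsto_atTop).add (tendsto_aa hpψ)
    simpa using this
  have hPar : ParSeq l w0 R0 lamI (fun k => w (p (ψ k))) (fun k => R (p (ψ k)))
      (fun k => lam (ψ k) + ((aa (p (ψ k)) : ℝ) : ℂ)) :=
    ⟨by have : (0 : ℝ) ≤ (l : ℝ) / 2 := by positivity
        linarith, hR0, hw.comp hψ.tendsto_atTop, hR.comp hψ.tendsto_atTop, hL⟩
  refine Ev_eq_zero_of_match hPar (α := fun k => α k / (S k : ℂ)) (β := fun k => β k / (S k : ℂ))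
    ?_ ?_ ?_
  · intro k
    rw [norm_div, norm_div, hSn, ← add_div]
    exact div_self (hSpos k).ne'
  · intro ε hε
    obtain ⟨η1, hη1, h1⟩ := hk ε hε
    refine ⟨η1, hη1, fun η hη hle => ?_⟩
    filter_upwards [h1 η hη hle] with k hk
    have h2 := hk.s
    simp only [extF, extG, norm_zero, zero_mul, add_zero] at h2
    have e : α k / (S k : ℂ) * F0 d l (w (p (ψ k))) (lam (ψ k) + ((aa (p (ψ k)) : ℝ) : ℂ))
          (R (p (ψ k)) + η) +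
        β k / (S k : ℂ) * F0s d l (w (p (ψ k))) (lam (ψ k) + ((aa (p (ψ k)) : ℝ) : ℂ))
          (R (p (ψ k)) + η) =
        (α k * F0 d l (w (p (ψ k))) (lam (ψ k) + ((aa (p (ψ k)) : ℝ) : ℂ)) (R (p (ψ k)) + η) +
        β k * F0s d l (w (p (ψ k))) (lam (ψ k) + ((aa (p (ψ k)) : ℝ) : ℂ))
          (R (p (ψ k)) + η)) / (S k : ℂ) := by ring
    rw [e, norm_div, hSn, div_le_iff₀ (hSpos k)]
    exact h2
  · intro ε hε
    obtain ⟨η1, hη1, h1⟩ := hk ε hε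
    refine ⟨η1, hη1, fun η hη hle => ?_⟩
    filter_upwards [h1 η hη hle] with k hk
    have h2 := hk.t
    simp only [extF', extG', norm_zero, zero_mul, add_zero] at h2
    have e : α k / (S k : ℂ) * F0' d l (w (p (ψ k))) (lam (ψ k) + ((aa (p (ψ k)) : ℝ) : ℂ))
          (R (p (ψ k)) + η) -
        β k / (S k : ℂ) * F0s' d l (w (p (ψ k))) (lam (ψ k) + ((aa (p (ψ k)) : ℝ) : ℂ))
          (R (p (ψ k)) + η) =
        (α k * F0' d l (w (p (ψ k))) (lam (ψ k) + ((aa (p (ψ k)) : ℝ) : ℂ)) (R (p (ψ k)) + η) -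
        β k * F0s' d l (w (p (ψ k))) (lam (ψ k) + ((aa (p (ψ k)) : ℝ) : ℂ))
          (R (p (ψ k)) + η)) / (S k : ℂ) := by ring
    rw [e, norm_div, hSn, div_le_iff₀ (hSpos k)]
    exact h2

/-- Case B: near a symmetry value. -/
theorem false_of_seq {d l : ℕ} {K : ℕ → ℕ} {w R : ℕ → ℝ} {q : ℕ → ℝ → ℂ} {b : ℝ} {m0 : ℕ}
    (hExt : Ext d K w R q b) (hKey : ∀ L0, KeyStmt d w R q b l L0) (hK : ∀ m, 2 ≤ K m)
    (hb : ∀ m, m0 ≤ m → R m + 1 ≤ b) {p : ℕ → ℕ} (hp : StrictMono p) (hp0 : ∀ j, m0 ≤ p j)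
    {lam : ℕ → ℂ} (hre : ∀ j, 0 ≤ (lam j).re) {lamI : ℂ} (hlam : Tendsto lam atTop (𝓝 lamI))
    {w0 R0 : ℝ} (hw : Tendsto (fun j => w (p j)) atTop (𝓝 w0))
    (hR : Tendsto (fun j => R (p j)) atTop (𝓝 R0)) (hR0 : 0 < R0)
    (hE' : deriv (Ev d l w0 R0) lamI ≠ 0)
    (hV : ∀ j, ViolB d (p j) (K (p j)) l (w (p j)) (q (p j)) b (lam j) lamI) : False := by
  choose F G φ γ c aF aG aφ aγ hs0 hs1 hφpos hFpos horth using hV
  have hI : 0 ≤ lamI.re :=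
    ge_of_tendsto' ((Complex.continuous_re.tendsto _).comp hlam) hre
  have hbd : ∀ᶠ j in atTop, ‖lam j‖ ≤ ‖lamI‖ + 1 := by
    have := hlam.norm.eventually (gt_mem_nhds (show ‖lamI‖ < ‖lamI‖ + 1 by linarith))
    filter_upwards [this] with j hj using hj.le
  obtain ⟨ψ, hψ, Cs, hCs, α, β, α0, β0, n1, n2, c1, c2, hk⟩ := extraction hExt
    (hKey (‖lamI‖ + 1)) hK hb hp hp0 hre hbd (lam0 := lamI) hI (by linarith)
    aF aG aφ aγ hs0 hs1
  have hbpos : 0 < b := by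
    have h1 : ∀ j, R (p j) ≤ b := fun j => by linarith [hb _ (hp0 j)]
    exact hR0.trans_le (le_of_tendsto' hR h1)
  set a : ℕ → ℝ := fun k => ‖α0 k‖ + ‖β0 k‖ with hadef
  set S : ℕ → ℝ := fun k => ‖α k‖ + ‖β k‖ + ‖c (ψ k)‖ * a k with hSdef
  have hapos : ∀ k, 0 < a k := by
    intro k
    have h1 := (hφpos (ψ k)).trans_le (n1 k)
    by_contra hcon
    have : Cs * a k ≤ 0 := mul_nonpos_of_nonneg_of_nonpos hCs.le (not_lt.1 hcon)
    exact absurd h1 (not_lt.2 this)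
  have hSpos : ∀ k, 0 < S k := by
    intro k
    by_contra hcon
    have hS0 : S k ≤ 0 := not_lt.1 hcon
    have h1 := norm_nonneg (α k)
    have h2 := norm_nonneg (β k)
    have h3 := mul_nonneg (norm_nonneg (c (ψ k))) (hapos k).le
    have h4 : ‖c (ψ k)‖ * a k = 0 := le_antisymm (by simp only [hSdef] at hS0; linarith) h3
    have h5 : c (ψ k) = 0 := by
      rcases mul_eq_zero.1 h4 with h | h
      · exact norm_eq_zero.1 h
      · exact absurd h (hapos k).ne'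
    have h6 := (hFpos (ψ k) h5).trans_le (n2 k)
    have : Cs * S k ≤ 0 := mul_nonpos_of_nonneg_of_nonpos hCs.le hS0
    exact absurd h6 (not_lt.2 this)
  have hSne : ∀ k, ((S k : ℝ) : ℂ) ≠ 0 := fun k => by exact_mod_cast (hSpos k).ne'
  have hane : ∀ k, ((a k : ℝ) : ℂ) ≠ 0 := fun k => by exact_mod_cast (hapos k).ne'
  have hSn : ∀ k, ‖((S k : ℝ) : ℂ)‖ = S k := fun k => by
    rw [Complex.norm_real, Real.norm_eq_abs, abs_of_pos (hSpos k)]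
  have han : ∀ k, ‖((a k : ℝ) : ℂ)‖ = a k := fun k => by
    rw [Complex.norm_real, Real.norm_eq_abs, abs_of_pos (hapos k)]
  have hpψ : Tendsto (fun k => p (ψ k)) atTop atTop := hp.tendsto_atTop.comp hψ.tendsto_atTop
  have hL : Tendsto (fun k => lam (ψ k) + ((aa (p (ψ k)) : ℝ) : ℂ)) atTop (𝓝 lamI) := by
    have := (hlam.comp hψ.tendsto_atTop).add (tendsto_aa hpψ)
    simpa using this
  have hL0 : Tendsto (fun k => lamI + ((aa (p (ψ k)) : ℝ) : ℂ)) atTop (𝓝 lamI) := by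
    have := (tendsto_const_nhds (x := lamI)).add (tendsto_aa hpψ)
    simpa using this
  have hPar : ParSeq l w0 R0 lamI (fun k => w (p (ψ k))) (fun k => R (p (ψ k)))
      (fun k => lam (ψ k) + ((aa (p (ψ k)) : ℝ) : ℂ)) :=
    ⟨by have : (0 : ℝ) ≤ (l : ℝ) / 2 := by positivity
        linarith, hR0, hw.comp hψ.tendsto_atTop, hR.comp hψ.tendsto_atTop, hL⟩
  -- errors of the data at `b`
  have herrF : ∀ k : ℕ, 1 / ((k : ℝ) + 1) * (nrm d b (F (ψ k)) (G (ψ k)) +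
      ‖c (ψ k)‖ * nrm d b (φ (ψ k)) (γ (ψ k))) / S k ≤ 2 * Cs * (1 / ((k : ℝ) + 1)) := by
    intro k
    rw [div_le_iff₀ (hSpos k)]
    have h1 := n2 k
    have h2 : ‖c (ψ k)‖ * nrm d b (φ (ψ k)) (γ (ψ k)) ≤ Cs * S k := by
      calc ‖c (ψ k)‖ * nrm d b (φ (ψ k)) (γ (ψ k)) ≤ ‖c (ψ k)‖ * (Cs * a k) :=
            mul_le_mul_of_nonneg_left (n1 k) (norm_nonneg _)
        _ = Cs * (‖c (ψ k)‖ * a k) := by ring
        _ ≤ Cs * S k := by
            refine mul_le_mul_of_nonneg_left ?_ hCs.le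
            have h3 := norm_nonneg (α k)
            have h4 := norm_nonneg (β k)
            simp only [hSdef]; linarith
    have h5 : (0 : ℝ) ≤ 1 / ((k : ℝ) + 1) := by positivity
    calc 1 / ((k : ℝ) + 1) * (nrm d b (F (ψ k)) (G (ψ k)) +
          ‖c (ψ k)‖ * nrm d b (φ (ψ k)) (γ (ψ k)))
        ≤ 1 / ((k : ℝ) + 1) * (Cs * S k + Cs * S k) :=
          mul_le_mul_of_nonneg_left (add_le_add h1 h2) h5
      _ = 2 * Cs * (1 / ((k : ℝ) + 1)) * S k := by ring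
  have herr0 : ∀ k : ℕ, 1 / ((k : ℝ) + 1) * nrm d b (φ (ψ k)) (γ (ψ k)) / a k ≤
      2 * Cs * (1 / ((k : ℝ) + 1)) := by
    intro k
    rw [div_le_iff₀ (hapos k)]
    have h5 : (0 : ℝ) ≤ 1 / ((k : ℝ) + 1) := by positivity
    calc 1 / ((k : ℝ) + 1) * nrm d b (φ (ψ k)) (γ (ψ k))
        ≤ 1 / ((k : ℝ) + 1) * (Cs * a k) := mul_le_mul_of_nonneg_left (n1 k) h5
      _ ≤ 1 / ((k : ℝ) + 1) * (2 * (Cs * a k)) := by
          refine mul_le_mul_of_nonneg_left ?_ h5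
          have := mul_pos hCs (hapos k)
          linarith
      _ = 2 * Cs * (1 / ((k : ℝ) + 1)) * a k := by ring
  have hzero : Tendsto (fun k : ℕ => 2 * Cs * (1 / ((k : ℝ) + 1))) atTop (𝓝 0) := by
    have := (tendsto_one_div_add_atTop_nhds_zero_nat (𝕜 := ℝ)).const_mul (2 * Cs)
    simpa using this
  have hsqF : ∀ {x y : ℕ → ℂ}, (∀ k : ℕ, ‖x k - y k‖ ≤ 1 / ((k : ℝ) + 1) *
      (nrm d b (F (ψ k)) (G (ψ k)) + ‖c (ψ k)‖ * nrm d b (φ (ψ k)) (γ (ψ k)))) →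
      Tendsto (fun k => x k / (S k : ℂ) - y k / (S k : ℂ)) atTop (𝓝 0) := by
    intro x y hxy
    refine squeeze_zero_norm (fun k => ?_) hzero
    rw [← sub_div, norm_div, hSn]
    exact (div_le_div_of_nonneg_right (hxy k) (hSpos k).le).trans (herrF k)
  have hsq0 : ∀ {x y : ℕ → ℂ}, (∀ k : ℕ, ‖x k - y k‖ ≤ 1 / ((k : ℝ) + 1) *
      nrm d b (φ (ψ k)) (γ (ψ k))) →
      Tendsto (fun k => x k / (a k : ℂ) - y k / (a k : ℂ)) atTop (𝓝 0) := by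
    intro x y hxy
    refine squeeze_zero_norm (fun k => ?_) hzero
    rw [← sub_div, norm_div, han]
    exact (div_le_div_of_nonneg_right (hxy k) (hapos k).le).trans (herr0 k)
  refine false_of_match_data hPar hL0
    (α := fun k => α k / (S k : ℂ)) (β := fun k => β k / (S k : ℂ))
    (c := fun k => c (ψ k) * (a k : ℂ) / (S k : ℂ))
    (α0 := fun k => α0 k / (a k : ℂ)) (β0 := fun k => β0 k / (a k : ℂ))
    ?_ ?_ ?_ ?_ ?_ ?_ (R1 := b) hbpos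
    (X1 := fun k => F (ψ k) b / (b : ℂ) ^ l / (S k : ℂ))
    (X2 := fun k => deriv (fun t : ℝ => F (ψ k) t / (t : ℂ) ^ l) b / (S k : ℂ))
    (X3 := fun k => G (ψ k) b / (b : ℂ) ^ l / (S k : ℂ))
    (X4 := fun k => deriv (fun t : ℝ => G (ψ k) t / (t : ℂ) ^ l) b / (S k : ℂ))
    (Y1 := fun k => φ (ψ k) b / (b : ℂ) ^ l / (a k : ℂ))
    (Y2 := fun k => deriv (fun t : ℝ => φ (ψ k) t / (t : ℂ) ^ l) b / (a k : ℂ))
    (Y3 := fun k => γ (ψ k) b / (b : ℂ) ^ l / (a k : ℂ))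
    (Y4 := fun k => deriv (fun t : ℝ => γ (ψ k) t / (t : ℂ) ^ l) b / (a k : ℂ))
    ?_ ?_ ?_ ?_ ?_ ?_ ?_ ?_ ?_ (fun _ => hE')
  · intro k
    rw [norm_div, norm_div, norm_div, norm_mul, hSn, han, ← add_div, ← add_div]
    exact div_self (hSpos k).ne'
  · intro k
    rw [norm_div, norm_div, han, ← add_div]
    exact div_self (hapos k).ne'
  · intro ε hε
    obtain ⟨η1, hη1, h1⟩ := hk ε hε
    refine ⟨η1, hη1, fun η hη hle => ?_⟩
    filter_upwards [h1 η hη hle] with k hk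
    rw [nS_div (hSne k) (hane k), norm_div, hSn, div_le_iff₀ (hSpos k)]
    exact hk.s
  · intro ε hε
    obtain ⟨η1, hη1, h1⟩ := hk ε hε
    refine ⟨η1, hη1, fun η hη hle => ?_⟩
    filter_upwards [h1 η hη hle] with k hk
    rw [nT_div (hSne k) (hane k), norm_div, hSn, div_le_iff₀ (hSpos k)]
    exact hk.t
  · intro ε hε
    obtain ⟨η1, hη1, h1⟩ := hk ε hε
    refine ⟨η1, hη1, fun η hη hle => ?_⟩
    filter_upwards [h1 η hη hle] with k hk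
    have e : ∀ u v : ℂ, α0 k / (a k : ℂ) * u + β0 k / (a k : ℂ) * v =
        (α0 k * u + β0 k * v) / (a k : ℂ) := fun u v => by ring
    rw [e, norm_div, han, div_le_iff₀ (hapos k)]
    exact hk.s0
  · intro ε hε
    obtain ⟨η1, hη1, h1⟩ := hk ε hε
    refine ⟨η1, hη1, fun η hη hle => ?_⟩
    filter_upwards [h1 η hη hle] with k hk
    have e : ∀ u v : ℂ, α0 k / (a k : ℂ) * u - β0 k / (a k : ℂ) * v =
        (α0 k * u - β0 k * v) / (a k : ℂ) := fun u v => by ring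
    rw [e, norm_div, han, div_le_iff₀ (hapos k)]
    exact hk.t0
  · have := hsqF (x := fun k => F (ψ k) b / (b : ℂ) ^ l)
      (y := fun k => extF d l (w (p (ψ k))) (lam (ψ k) + aa (p (ψ k))) (lamI + aa (p (ψ k)))
        (α k) (α0 k) (c (ψ k)) b) (fun k => (c2 k).f0 b rfl)
    refine this.congr fun k => ?_
    simp only [extF, sF0]
    field_simp [hSne k, hane k]
  · have := hsqF (x := fun k => deriv (fun t : ℝ => F (ψ k) t / (t : ℂ) ^ l) b)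
      (y := fun k => extF' d l (w (p (ψ k))) (lam (ψ k) + aa (p (ψ k))) (lamI + aa (p (ψ k)))
        (α k) (α0 k) (c (ψ k)) b) (fun k => (c2 k).f1 b rfl)
    refine this.congr fun k => ?_
    simp only [extF', sF0']
    field_simp [hSne k, hane k]
  · have := hsqF (x := fun k => G (ψ k) b / (b : ℂ) ^ l)
      (y := fun k => extG d l (w (p (ψ k))) (lam (ψ k) + aa (p (ψ k))) (lamI + aa (p (ψ k)))
        (β k) (β0 k) (c (ψ k)) b) (fun k => (c2 k).g0 b rfl)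
    refine this.congr fun k => ?_
    simp only [extG, sF0s]
    field_simp [hSne k, hane k]
  · have := hsqF (x := fun k => deriv (fun t : ℝ => G (ψ k) t / (t : ℂ) ^ l) b)
      (y := fun k => extG' d l (w (p (ψ k))) (lam (ψ k) + aa (p (ψ k))) (lamI + aa (p (ψ k)))
        (β k) (β0 k) (c (ψ k)) b) (fun k => (c2 k).g1 b rfl)
    refine this.congr fun k => ?_
    simp only [extG', sF0s']
    field_simp [hSne k, hane k]
  · have := hsq0 (x := fun k => φ (ψ k) b / (b : ℂ) ^ l)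
      (y := fun k => extF d l (w (p (ψ k))) (lamI + aa (p (ψ k))) (lamI + aa (p (ψ k)))
        (α0 k) 0 0 b) (fun k => (c1 k).f0 b rfl)
    refine this.congr fun k => ?_
    simp only [extF]
    ring
  · have := hsq0 (x := fun k => deriv (fun t : ℝ => φ (ψ k) t / (t : ℂ) ^ l) b)
      (y := fun k => extF' d l (w (p (ψ k))) (lamI + aa (p (ψ k))) (lamI + aa (p (ψ k)))
        (α0 k) 0 0 b) (fun k => (c1 k).f1 b rfl)
    refine this.congr fun k => ?_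
    simp only [extF']
    ring
  · have := hsq0 (x := fun k => γ (ψ k) b / (b : ℂ) ^ l)
      (y := fun k => extG d l (w (p (ψ k))) (lamI + aa (p (ψ k))) (lamI + aa (p (ψ k)))
        (β0 k) 0 0 b) (fun k => (c1 k).g0 b rfl)
    refine this.congr fun k => ?_
    simp only [extG]
    ring
  · have := hsq0 (x := fun k => deriv (fun t : ℝ => γ (ψ k) t / (t : ℂ) ^ l) b)
      (y := fun k => extG' d l (w (p (ψ k))) (lamI + aa (p (ψ k))) (lamI + aa (p (ψ k)))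
        (β0 k) 0 0 b) (fun k => (c1 k).g1 b rfl)
    refine this.congr fun k => ?_
    simp only [extG']
    ring
  · refine Tendsto.congr (fun k => ?_) tendsto_const_nhds
    have h : F (ψ k) b / (b : ℂ) ^ l * conj (φ (ψ k) b / (b : ℂ) ^ l) +
        deriv (fun t : ℝ => F (ψ k) t / (t : ℂ) ^ l) b *
          conj (deriv (fun t : ℝ => φ (ψ k) t / (t : ℂ) ^ l) b) +
        G (ψ k) b / (b : ℂ) ^ l * conj (γ (ψ k) b / (b : ℂ) ^ l) +
        deriv (fun t : ℝ => G (ψ k) t / (t : ℂ) ^ l) b *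
          conj (deriv (fun t : ℝ => γ (ψ k) t / (t : ℂ) ^ l) b) = 0 := horth (ψ k)
    simp only [map_div₀, Complex.conj_ofReal, map_pow] at h ⊢
    symm
    have e : ∀ u1 u2 u3 u4 v1 v2 v3 v4 s t : ℂ, u1 / s * (v1 / t) + u2 / s * (v2 / t) +
        u3 / s * (v3 / t) + u4 / s * (v4 / t) = (u1 * v1 + u2 * v2 + u3 * v3 + u4 * v4) / (s * t) := by
      intros; ring
    rw [e, h, zero_div]

/-- Facts on the explicit symmetry mode of one member. -/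
structure ModeOK (d m K l : ℕ) (w : ℝ) (q : ℝ → ℂ) (lam0 : ℂ) : Prop where
  aF : RadAdm K (sF m w q lam0)
  aG : RadAdm K (sG m w q lam0)
  sol : RSol d m l w q lam0 0 (sF m w q lam0) (sG m w q lam0) (sF m w q lam0) (sG m w q lam0)
  ne : ¬ ∀ r > 0, sF m w q lam0 r = 0

theorem violA_of {d m K l : ℕ} {w b : ℝ} {q : ℝ → ℂ} {lam : ℂ} (hK : 2 ≤ K)
    (hq : ContinuousOn q (Ioi 0)) (hb : 0 < b) (hs : ¬ SymV l lam)
    (hbad : ¬ (EigAt d m K w q l lam ∧ JorAt d m K w q l lam)) :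
    ViolA d m K l w q b lam := by
  obtain ⟨F, G, aF, aG, e1, e2, hne⟩ := viol_not_sym hs hbad
  refine ⟨F, G, aF, aG, ⟨fun r hr => ?_, fun r hr => ?_⟩, ?_⟩
  · rw [e1 r hr]; simp
  · rw [e2 r hr]; simp
  · refine lt_of_le_of_ne (nrm_nonneg _ _ _ _) fun h => hne ?_
    exact uc_nrm hK hq aF aG e1 e2 hb h.symm

theorem violB_of {d m K l : ℕ} {w b : ℝ} {q : ℝ → ℂ} {lam lam0 : ℂ} (hK : 2 ≤ K)
    (hq : ContinuousOn q (Ioi 0)) (hb : 0 < b) (hs : SymV l lam0)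
    (hlam : lam = lam0 ∨ ¬ SymV l lam) (hm : ModeOK d m K l w q lam0)
    (hbad : ¬ (EigAt d m K w q l lam ∧ JorAt d m K w q l lam)) :
    ViolB d m K l w q b lam lam0 := by
  obtain ⟨F, G, c, aF, aG, hsol, hip, hne⟩ :=
    viol_sym hK hq hs hlam hm.aF hm.aG hm.sol hm.ne hb hbad
  refine ⟨F, G, _, _, c, aF, aG, hm.aF, hm.aG, hm.sol, hsol, ?_, fun hc => ?_, hip⟩
  · refine lt_of_le_of_ne (nrm_nonneg _ _ _ _) fun h => hm.ne fun r hr => ?_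
    exact (uc_nrm (lam := lam0) hK hq hm.aF hm.aG (fun r hr => by rw [hm.sol.e1 r hr]; simp)
      (fun r hr => by rw [hm.sol.e2 r hr]; simp) hb h.symm r hr).1
  · refine lt_of_le_of_ne (nrm_nonneg _ _ _ _) fun h => hne hc ?_
    subst hc
    exact uc_nrm (lam := lam) hK hq aF aG (fun r hr => by rw [hsol.e1 r hr]; simp)
      (fun r hr => by rw [hsol.e2 r hr]; simp) hb h.symm

/-- **[S2.glue].** -/
theorem s2Out_of_glue {d : ℕ} {B : Set (ℝ × ℝ)} {m0 : ℕ} {w R : ℕ → ℝ} {q : ℕ → ℝ → ℂ}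
    (h : UP d B m0 w R q) (hB : IsClosed B)
    (hcert : ∀ w R : ℝ, (w, R) ∈ B → 0 < w → 0 < R → Qinf' d w R = 0 → CertGood d w R)
    {K : ℕ → ℕ} (hK : ∀ m, 2 ≤ K m) {b : ℝ} (hb : ∀ m, m0 ≤ m → R m + 1 ≤ b)
    (hExt : Ext d K w R q b) (hKey : ∀ l L0, KeyStmt d w R q b l L0)
    (hmode : ∀ m, m0 ≤ m → ∀ (l : ℕ) (lam0 : ℂ), SymV l lam0 →
      ModeOK d m (K m) l (w m) (q m) lam0) :
    S2Out d w q := by
  have hq : ∀ m, m0 ≤ m → ContinuousOn (q m) (Ioi 0) := by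
    intro m hm
    obtain ⟨g, hg, hgq⟩ := h.rad m hm
    have : q m = fun r => g (r ^ 2) := funext hgq
    rw [this]
    exact (hg.continuous.comp (continuous_pow 2)).continuousOn
  have hb0 : 0 < b := by
    have h1 := hb m0 le_rfl
    have h2 := h.Rpos m0 le_rfl
    linarith
  refine s2Out_of_seq h hB (Good := CertGood d) hcert K ?_
  intro l φ hφ hφ0 lam lamI w0 R0 hre hlam hw hR hw0 hw1 hR0 hmem hQ hgood
  by_contra hcon
  push Not at hcon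
  have hbad : ∀ j, ¬ (EigAt d (φ j) (K (φ j)) (w (φ j)) (q (φ j)) l (lam j) ∧
      JorAt d (φ j) (K (φ j)) (w (φ j)) (q (φ j)) l (lam j)) := fun j hj =>
    hcon j hj.1 hj.2
  have hI : 0 ≤ lamI.re :=
    ge_of_tendsto' ((Complex.continuous_re.tendsto _).comp hlam) hre
  by_cases hs : SymV l lamI
  · obtain ⟨N, hN⟩ := eventually_atTop.1 (eventually_symV hlam hs)
    refine false_of_seq (p := fun j => φ (j + N)) (lam := fun j => lam (j + N)) hExt (hKey l) hK hb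
      (fun a b hab => hφ (by omega)) (fun j => hφ0 _) (fun j => hre _)
      (hlam.comp (tendsto_add_atTop_nat N)) (hw.comp (tendsto_add_atTop_nat N))
      (hR.comp (tendsto_add_atTop_nat N)) hR0 (hgood.simple l lamI hs) (fun j => ?_)
    exact violB_of (hK _) (hq _ (hφ0 _)) hb0 hs (hN _ (by omega)) (hmode _ (hφ0 _) l lamI hs)
      (hbad _)
  · obtain ⟨N, hN⟩ := eventually_atTop.1 (eventually_not_symV hlam hs)
    refine hgood.ne l lamI hI hs ?_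
    refine ev_zero_of_seq (p := fun j => φ (j + N)) (lam := fun j => lam (j + N)) hExt (hKey l) hK
      hb (fun a b hab => hφ (by omega)) (fun j => hφ0 _) (fun j => hre _)
      (hlam.comp (tendsto_add_atTop_nat N)) (hw.comp (tendsto_add_atTop_nat N))
      (hR.comp (tendsto_add_atTop_nat N)) hR0 (fun j => ?_)
    exact violA_of (hK _) (hq _ (hφ0 _)) hb0 (hN _ (by omega)) (hbad _)

end Vale.Agent.P139.H694
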