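import Vale.Agent.P139.H694.QC

/-!
# Quasi-compact strongly continuous semigroups: dichotomy modulo a finite dimensional space

Main result: `IsC0.exists_projection`.
-/

open Filter Topology MeasureTheory intervalIntegral
open scoped NNReal ENNReal

namespace Vale.P139.QC

/-! ### A continuous `1`-periodic function with `h 0 ≠ 0` has a nonzero Fourier coefficient -/

theorem exists_fourier_ne_zero {h : ℝ → ℂ} (hc : ContinuousOn h (Set.Icc 0 1))
    (hper : h 0 = h 1) (h0 : h 0 ≠ 0) :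
    ∃ n : ℤ, ∫ s in (0 : ℝ)..1, Complex.exp (-(2 * Real.pi * Complex.I * n * s)) * h s ≠ 0 := by
  by_contra hcon
  push Not at hcon
  have : Fact ((0 : ℝ) < 1) := ⟨one_pos⟩
  set f : C(AddCircle (1 : ℝ), ℂ) :=
    ⟨AddCircle.liftIco 1 0 h, AddCircle.liftIco_zero_continuous hper hc⟩ with hf
  have hcoef : ∀ n : ℤ, fourierCoeff f n = 0 := by
    intro n
    have h1 : fourierCoeff (f : AddCircle (1 : ℝ) → ℂ) n =
        fourierCoeffOn (lt_add_of_pos_right (0 : ℝ) one_pos) h n := by
      exact fourierCoeff_liftIco_eq (T := 1) (a := 0) h n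
    rw [h1, fourierCoeffOn_eq_integral]
    have h2 : ∫ x in (0 : ℝ)..(0 + 1), fourier (-n) (x : AddCircle (0 + 1 - 0 : ℝ)) • h x
        = ∫ s in (0 : ℝ)..1, Complex.exp (-(2 * Real.pi * Complex.I * n * s)) * h s := by
      rw [zero_add]
      refine intervalIntegral.integral_congr fun s _ => ?_
      simp only [smul_eq_mul]
      rw [fourier_coe_apply]
      congr 2
      push_cast
      ring
    rw [h2, hcon n, smul_zero]
  have hsum : Summable (fourierCoeff f) := by
    have : fourierCoeff (f : AddCircle (1 : ℝ) → ℂ) = fun _ => 0 := funext hcoef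
    rw [this]; exact summable_zero
  have h3 := has_pointwise_sum_fourier_series_of_summable hsum (0 : AddCircle (1 : ℝ))
  simp only [hcoef, zero_smul] at h3
  have h4 : f (0 : AddCircle (1 : ℝ)) = 0 := (h3.unique hasSum_zero)
  have h5 : f (0 : AddCircle (1 : ℝ)) = h 0 := by
    have := AddCircle.liftIco_zero_coe_apply (p := (1 : ℝ)) (f := h) (x := 0) ⟨le_rfl, one_pos⟩
    rw [AddCircle.coe_zero] at this
    exact this
  exact h0 (h5 ▸ h4)

variable {X : Type*} [NormedAddCommGroup X] [NormedSpace ℂ X]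

/-- Strongly continuous semigroups of bounded operators, indexed by `t ≥ 0` (values at negative
times are irrelevant). -/
structure IsC0 (S : ℝ → X →L[ℂ] X) : Prop where
  zero : S 0 = 1
  add : ∀ s t, 0 ≤ s → 0 ≤ t → S (s + t) = S s * S t
  cont : ∀ x, ContinuousOn (fun t => S t x) (Set.Ici 0)

namespace IsC0

variable {S : ℝ → X →L[ℂ] X}

theorem add_apply (hS : IsC0 S) {s t : ℝ} (hs : 0 ≤ s) (ht : 0 ≤ t) (x : X) :
    S (s + t) x = S s (S t x) := by
  rw [hS.add s t hs ht]; rfl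

theorem comm_apply (hS : IsC0 S) {s t : ℝ} (hs : 0 ≤ s) (ht : 0 ≤ t) (x : X) :
    S s (S t x) = S t (S s x) := by
  rw [← hS.add_apply hs ht, ← hS.add_apply ht hs, add_comm]

theorem nat (hS : IsC0 S) (n : ℕ) : S n = (S 1) ^ n := by
  induction n with
  | zero => simpa using hS.zero
  | succ n ih =>
    rw [Nat.cast_add, Nat.cast_one, hS.add _ _ (Nat.cast_nonneg n) zero_le_one, ih, pow_succ]

theorem bounded [CompleteSpace X] (hS : IsC0 S) (a : ℝ) :
    ∃ M : ℝ, 0 < M ∧ ∀ t, 0 ≤ t → t ≤ a → ‖S t‖ ≤ M := by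
  have h : ∀ x : X, ∃ C, ∀ i : Set.Icc (0 : ℝ) a, ‖S (i : ℝ) x‖ ≤ C := by
    intro x
    have h1 : ContinuousOn (fun t => ‖S t x‖) (Set.Icc 0 a) :=
      ((hS.cont x).mono (fun t ht => ht.1)).norm
    obtain ⟨C, hC⟩ := isCompact_Icc.exists_bound_of_continuousOn h1
    refine ⟨C, fun i => ?_⟩
    have := hC i i.2
    simpa using this
  obtain ⟨C', hC'⟩ := banach_steinhaus h
  refine ⟨max C' 1, lt_of_lt_of_le one_pos (le_max_right _ _), fun t ht0 hta => ?_⟩
  exact (hC' ⟨t, ht0, hta⟩).trans (le_max_left _ _)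

variable [CompleteSpace X]

/-- From eigenvectors modulo `E` of the time-one map to eigenvectors modulo `E` of the whole
semigroup. -/
theorem discrete_of_continuous (hS : IsC0 S) (E : Submodule ℂ X) (P₁ : X →L[ℂ] X)
    (hP₁ : ∀ x, P₁ x ∈ E) (hP₁E : ∀ x ∈ E, P₁ x = x)
    (hE : ∀ t, 0 ≤ t → ∀ x ∈ E, S t x ∈ E)
    (hH : ∀ (lam : ℂ), 0 ≤ lam.re → ∀ x, (∀ t : ℝ, 0 ≤ t → S t x - Complex.exp (lam * t) • x ∈ E) →
      x ∈ E) (μ : ℂ) (x : X) (hμ : 1 ≤ ‖μ‖) (hx : S 1 x - μ • x ∈ E) : x ∈ E := by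
  by_contra hxE
  set Q : X →L[ℂ] X := 1 - P₁ with hQ
  have hQE : ∀ x ∈ E, Q x = 0 := by
    intro x hx
    rw [hQ, sub_apply, one_apply_eq_self, hP₁E x hx, sub_self]
  have hQker : ∀ x, Q x = 0 → x ∈ E := by
    intro x hx
    rw [hQ, sub_apply, one_apply_eq_self, sub_eq_zero] at hx
    rw [hx]; exact hP₁ x
  have hμ0 : μ ≠ 0 := by
    rintro rfl
    rw [norm_zero] at hμ
    linarith
  have hQx : Q x ≠ 0 := fun h => hxE (hQker x h)
  obtain ⟨φ, -, hφ⟩ := exists_dual_vector ℂ (Q x) (norm_ne_zero_iff.2 hQx)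
  have hφx : φ (Q x) ≠ 0 := by
    rw [hφ]
    simpa using hQx
  -- the basic one-step relation
  have hstep : ∀ s : ℝ, 0 ≤ s → Q (S (s + 1) x) = μ • Q (S s x) := by
    intro s hs
    rw [hS.add_apply hs zero_le_one]
    have h1 : S 1 x = (S 1 x - μ • x) + μ • x := by abel
    rw [h1, map_add, map_add, hQE _ (hE s hs _ hx), zero_add, map_smul, map_smul]
  have hSc : ContinuousOn (fun s : ℝ => S s x) (Set.Icc 0 1) :=
    (hS.cont x).mono (fun t ht => ht.1)
  set l0 : ℂ := Complex.log μ with hl0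
  have hexp0 : Complex.exp l0 = μ := Complex.exp_log hμ0
  set h : ℝ → ℂ := fun s => Complex.exp (-(l0 * s)) * φ (Q (S s x)) with hh
  have hcont : ContinuousOn h (Set.Icc 0 1) := by
    refine ContinuousOn.mul (by fun_prop) ?_
    exact (φ.continuous.comp Q.continuous).comp_continuousOn hSc
  have hper : h 0 = h 1 := by
    have h1 := hstep 0 le_rfl
    rw [zero_add] at h1
    simp only [hh]
    rw [h1, map_smul, smul_eq_mul, Complex.ofReal_zero, mul_zero, neg_zero, Complex.exp_zero,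
      Complex.ofReal_one, mul_one, Complex.exp_neg, hexp0, ← mul_assoc, inv_mul_cancel₀ hμ0]
  have hne : h 0 ≠ 0 := by
    simp only [hh]
    rw [hS.zero, Complex.ofReal_zero, mul_zero, neg_zero, Complex.exp_zero, one_mul]
    exact hφx
  obtain ⟨n, hn⟩ := exists_fourier_ne_zero hcont hper hne
  set lam : ℂ := l0 + 2 * Real.pi * Complex.I * n with hlam
  have hexp : Complex.exp lam = μ := by
    rw [hlam, Complex.exp_add, hexp0]
    have : Complex.exp (2 * Real.pi * Complex.I * n) = 1 := by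
      rw [mul_comm]; exact Complex.exp_int_mul_two_pi_mul_I n
    rw [this, mul_one]
  have hre : 0 ≤ lam.re := by
    have h1 : ‖Complex.exp lam‖ = Real.exp lam.re := Complex.norm_exp lam
    rw [hexp] at h1
    rw [h1] at hμ
    exact Real.one_le_exp_iff.1 hμ
  -- the vector-valued Fourier coefficient
  set y : X := ∫ s in (0 : ℝ)..1, Complex.exp (-(lam * s)) • S s x with hy
  set G : ℝ → X := fun s => Complex.exp (-(lam * s)) • Q (S s x) with hG
  have hGper : ∀ s, 0 ≤ s → G (s + 1) = G s := by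
    intro s hs
    simp only [hG]
    rw [hstep s hs, smul_smul]
    congr 1
    push_cast
    rw [mul_add, mul_one, neg_add, Complex.exp_add, Complex.exp_neg lam, hexp, mul_assoc,
      inv_mul_cancel₀ hμ0, mul_one]
  have hGnat : ∀ (n : ℕ) (s : ℝ), 0 ≤ s → G (s + n) = G s := by
    intro n
    induction n with
    | zero => intro s _; simp
    | succ n ih =>
      intro s hs
      rw [Nat.cast_add, Nat.cast_one, ← add_assoc, hGper _ (by positivity), ih s hs]
  set Gp : ℝ → X := fun s => G (Int.fract s) with hGp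
  have hGpG : ∀ s, 0 ≤ s → Gp s = G s := by
    intro s hs
    have h1 : s = Int.fract s + (⌊s⌋₊ : ℝ) := by
      have h2 : ((⌊s⌋₊ : ℕ) : ℝ) = ((⌊s⌋ : ℤ) : ℝ) := natCast_floor_eq_intCast_floor hs
      rw [h2]; exact (Int.fract_add_floor s).symm
    simp only [hGp]
    conv_rhs => rw [h1]
    rw [hGnat _ _ (Int.fract_nonneg s)]
  have hGpper : Function.Periodic Gp 1 := by
    intro s
    simp only [hGp]
    rw [Int.fract_add_one]
  have hint1 : IntervalIntegrable (fun s : ℝ => Complex.exp (-(lam * s)) • S s x) volume 0 1 := by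
    apply ContinuousOn.intervalIntegrable
    rw [Set.uIcc_of_le zero_le_one]
    exact ContinuousOn.smul (by fun_prop) hSc
  have hQy : Q y = ∫ s in (0 : ℝ)..1, G s := by
    rw [hy, ← ContinuousLinearMap.intervalIntegral_comp_comm Q hint1]
    simp only [hG, map_smul]
  have hφy : φ (Q y) ≠ 0 := by
    have hint2 : IntervalIntegrable G volume 0 1 := by
      apply ContinuousOn.intervalIntegrable
      rw [Set.uIcc_of_le zero_le_one]
      exact ContinuousOn.smul (by fun_prop) (Q.continuous.comp_continuousOn hSc)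
    have h1 : φ (Q y) =
        ∫ s in (0 : ℝ)..1, Complex.exp (-(2 * Real.pi * Complex.I * n * s)) * h s := by
      rw [hQy, ← ContinuousLinearMap.intervalIntegral_comp_comm φ hint2]
      refine intervalIntegral.integral_congr fun s _ => ?_
      simp only [hG, hh, map_smul, smul_eq_mul]
      rw [← mul_assoc, ← Complex.exp_add]
      congr 2
      rw [hlam]; ring
    rw [h1]; exact hn
  have hyE : y ∉ E := by
    intro hyE
    rw [hQE y hyE, map_zero] at hφy
    exact hφy rfl
  refine hyE (hH lam hre y fun t ht => ?_)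
  apply hQker
  have hSty : Q (S t y) = Complex.exp (lam * t) • ∫ s in (0 : ℝ)..1, G (t + s) := by
    rw [hy, ← ContinuousLinearMap.intervalIntegral_comp_comm (S t) hint1]
    have hint3 : IntervalIntegrable
        (fun s : ℝ => S t (Complex.exp (-(lam * s)) • S s x)) volume 0 1 := by
      apply ContinuousOn.intervalIntegrable
      rw [Set.uIcc_of_le zero_le_one]
      exact (S t).continuous.comp_continuousOn (ContinuousOn.smul (by fun_prop) hSc)
    rw [← ContinuousLinearMap.intervalIntegral_comp_comm Q hint3, ← intervalIntegral.integral_smul]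
    refine intervalIntegral.integral_congr fun s hs => ?_
    rw [Set.uIcc_of_le zero_le_one] at hs
    simp only [hG]
    rw [map_smul, map_smul, smul_smul, ← Complex.exp_add, hS.add_apply ht hs.1]
    congr 2
    push_cast
    ring
  have hshift : ∫ s in (0 : ℝ)..1, G (t + s) = ∫ s in (0 : ℝ)..1, G s := by
    have h1 : ∫ s in (0 : ℝ)..1, G (t + s) = ∫ s in (t + 0)..(t + 1), G s :=
      intervalIntegral.integral_comp_add_left (fun s => G s) t
    have h2 : ∫ s in (t + 0)..(t + 1), G s = ∫ s in (t + 0)..(t + 1), Gp s := by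
      refine intervalIntegral.integral_congr fun s hs => ?_
      rw [Set.uIcc_of_le (by linarith)] at hs
      exact (hGpG s (by linarith [hs.1])).symm
    have h3 : ∫ s in (0 : ℝ)..1, G s = ∫ s in (0 : ℝ)..(0 + 1), Gp s := by
      rw [zero_add]
      refine intervalIntegral.integral_congr fun s hs => ?_
      rw [Set.uIcc_of_le zero_le_one] at hs
      exact (hGpG s hs.1).symm
    rw [h1, h2, h3, add_zero]
    exact hGpper.intervalIntegral_add_eq t 0
  rw [map_sub, hSty, hshift, map_smul, hQy, sub_self]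


/-- **Theorem QC3 (dichotomy for quasi-compact semigroups).**  `S` strongly continuous semigroup on
a complex Banach space with `S 1` quasi-compact, `E` finite dimensional, invariant, with a backward
bound, and containing all eigenvectors modulo `E` with `0 ≤ Re lam`. Then there is a bounded
projection `P` onto `E`, commuting with the semigroup (and with every continuous additive map that
commutes with `S 1` and preserves `E`), and `‖S t (1 - P)‖` decays exponentially. -/
theorem exists_projection (hS : IsC0 S) (E : Submodule ℂ X) [FiniteDimensional ℂ E]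
    (hE : ∀ t, 0 ≤ t → ∀ x ∈ E, S t x ∈ E)
    {C₀ : ℝ} (hinv : ∀ t, 0 ≤ t → ∀ x ∈ E, ‖x‖ ≤ C₀ * ‖S t x‖)
    (hqc : QuasiCompact (S 1))
    (hH : ∀ (lam : ℂ), 0 ≤ lam.re → ∀ x, (∀ t : ℝ, 0 ≤ t → S t x - Complex.exp (lam * t) • x ∈ E) →
      x ∈ E) :
    ∃ P : X →L[ℂ] X, (∀ x, P x ∈ E) ∧ (∀ x ∈ E, P x = x) ∧
      (∀ t, 0 ≤ t → ∀ x, P (S t x) = S t (P x)) ∧
      (∃ C δ : ℝ, 0 < C ∧ 0 < δ ∧ ∀ t, 0 ≤ t → ∀ x, ‖S t (x - P x)‖ ≤ C * Real.exp (-δ * t) * ‖x‖) ∧
      (∀ g : X →+ X, Continuous g → (∀ x ∈ E, g x ∈ E) → (∀ x, g (S 1 x) = S 1 (g x)) →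
        ∀ x, P (g x) = g (P x)) := by
  obtain ⟨f, hf⟩ := Submodule.ClosedComplemented.of_finiteDimensional (𝕜 := ℂ) E
  set P₁ : X →L[ℂ] X := E.subtypeL ∘L f with hP₁def
  have hP₁ : ∀ x, P₁ x ∈ E := fun x => (f x).2
  have hP₁E : ∀ x ∈ E, P₁ x = x := by
    intro x hx
    have := hf ⟨x, hx⟩
    show ((f x : E) : X) = x
    exact congrArg Subtype.val this
  have hdisc := hS.discrete_of_continuous E P₁ hP₁ hP₁E hE hH
  have hinvn : ∀ n : ℕ, ∀ x ∈ E, ‖x‖ ≤ C₀ * ‖((S 1) ^ n) x‖ := by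
    intro n x hx
    have := hinv n (Nat.cast_nonneg n) x hx
    rwa [hS.nat] at this
  obtain ⟨P, hPE, hPid, hPT, C, q, hC, hq0, hq1, hdec⟩ :=
    hqc.exists_projection E (hE 1 zero_le_one) hinvn hdisc
  have hcommg : ∀ g : X →+ X, Continuous g → (∀ x ∈ E, g x ∈ E) →
      (∀ x, g (S 1 x) = S 1 (g x)) → ∀ x, P (g x) = g (P x) := fun g hg hgE hgT x =>
    projection_comm E hinvn hPE hPid hPT hq0 hq1 hdec g hg hgE hgT x
  obtain ⟨M, hM, hMb⟩ := hS.bounded 1
  refine ⟨P, hPE, hPid, ?_, ?_, hcommg⟩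
  · intro t ht x
    exact hcommg ((S t : X →+ X)) (S t).continuous (hE t ht)
      (fun z => (hS.comm_apply ht zero_le_one z)) x
  · refine ⟨M * (C / q), -Real.log q, by positivity, by
      have := Real.log_neg hq0 hq1; linarith, ?_⟩
    intro t ht x
    set n : ℕ := ⌊t⌋₊ with hn
    set r : ℝ := t - n with hr
    have hr0 : 0 ≤ r := by
      have := Nat.floor_le ht
      simp only [hr, hn]; linarith
    have hr1 : r ≤ 1 := by
      have := (Nat.lt_floor_add_one t).le
      simp only [hr, hn]; linarith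
    have ht' : t = r + n := by simp only [hr]; ring
    have h1 : S t (x - P x) = S r (((S 1) ^ n * (1 - P)) x) := by
      conv_lhs => rw [ht']
      rw [hS.add_apply hr0 (Nat.cast_nonneg n), hS.nat, mul_apply_eq_comp, sub_apply,
        one_apply_eq_self]
    have hqn : C * q ^ n ≤ C / q * Real.exp (-(-Real.log q) * t) := by
      have h2 : Real.exp (-(-Real.log q) * t) = q ^ t := by
        rw [neg_neg, Real.rpow_def_of_pos hq0]
      rw [h2]
      have h3 : q ^ ((n : ℝ) + 1) ≤ q ^ t := by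
        apply Real.rpow_le_rpow_of_exponent_ge hq0 hq1.le
        rw [ht']; linarith
      have h4 : q ^ ((n : ℝ) + 1) = q ^ n * q := by
        rw [Real.rpow_add hq0, Real.rpow_natCast, Real.rpow_one]
      calc C * q ^ n = C / q * (q ^ n * q) := by field_simp
        _ ≤ C / q * q ^ t := by
          rw [← h4]; gcongr
    rw [h1]
    calc ‖S r (((S 1) ^ n * (1 - P)) x)‖ ≤ ‖S r‖ * ‖((S 1) ^ n * (1 - P)) x‖ :=
          ContinuousLinearMap.le_opNorm _ _
      _ ≤ M * ((C * q ^ n) * ‖x‖) := by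
          gcongr
          · exact hMb r hr0 hr1
          · refine (ContinuousLinearMap.le_opNorm _ _).trans ?_
            gcongr
            exact hdec n
      _ ≤ M * ((C / q * Real.exp (-(-Real.log q) * t)) * ‖x‖) := by gcongr
      _ = M * (C / q) * Real.exp (-(-Real.log q) * t) * ‖x‖ := by ring

omit [CompleteSpace X] in
/-- The span of finitely many (semisimple) eigenvectors with `0 ≤ Re lam i` is invariant. -/
theorem span_invariant {ι : Type*} (v : ι → X) (lam : ι → ℂ)
    (hv : ∀ t, 0 ≤ t → ∀ i, S t (v i) = Complex.exp (lam i * t) • v i) :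
    ∀ t, 0 ≤ t → ∀ x ∈ Submodule.span ℂ (Set.range v), S t x ∈ Submodule.span ℂ (Set.range v) := by
  intro t ht x hx
  refine Submodule.span_induction
    (p := fun x _ => S t x ∈ Submodule.span ℂ (Set.range v)) ?_ ?_ ?_ ?_ hx
  · rintro _ ⟨i, rfl⟩
    rw [hv t ht i]
    exact Submodule.smul_mem _ _ (Submodule.subset_span ⟨i, rfl⟩)
  · simp
  · intro a b _ _ ha hb
    rw [map_add]; exact Submodule.add_mem _ ha hb
  · intro c a _ ha
    rw [map_smul]; exact Submodule.smul_mem _ _ ha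

omit [CompleteSpace X] in
/-- Backward bound on the span of finitely many eigenvectors with `0 ≤ Re lam i`. -/
theorem span_backward {ι : Type*} [Finite ι] (v : ι → X) (lam : ι → ℂ)
    (hv : ∀ t, 0 ≤ t → ∀ i, S t (v i) = Complex.exp (lam i * t) • v i)
    (hre : ∀ i, 0 ≤ (lam i).re) :
    ∃ C₀ : ℝ, ∀ t, 0 ≤ t → ∀ x ∈ Submodule.span ℂ (Set.range v), ‖x‖ ≤ C₀ * ‖S t x‖ := by
  classical
  obtain ⟨κ, a, hainj, haspan, hli⟩ := exists_linearIndependent' ℂ v
  have : Finite κ := Finite.of_injective a hainj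
  have := Fintype.ofFinite κ
  set L : (κ → ℂ) →ₗ[ℂ] X := Fintype.linearCombination ℂ (v ∘ a) with hL
  have hLapp : ∀ c : κ → ℂ, L c = ∑ k, c k • v (a k) := fun c => rfl
  have hker : LinearMap.ker L = ⊥ := by
    rw [LinearMap.ker_eq_bot']
    intro c hc
    have h1 := Fintype.linearIndependent_iff.1 hli c (by simpa [hLapp] using hc)
    exact funext h1
  obtain ⟨K, hK0, hK⟩ := L.exists_antilipschitzWith hker
  set Lc : (κ → ℂ) →L[ℂ] X := LinearMap.toContinuousLinearMap L with hLc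
  refine ⟨‖Lc‖ * K, fun t ht x hx => ?_⟩
  rw [← haspan] at hx
  have hx' : x ∈ LinearMap.range L := by
    rw [hL, Fintype.range_linearCombination]; exact hx
  obtain ⟨c, rfl⟩ := hx'
  set c' : κ → ℂ := fun k => Complex.exp (lam (a k) * t) * c k with hc'
  have hSt : S t (L c) = L c' := by
    rw [hLapp, hLapp, map_sum]
    refine Finset.sum_congr rfl fun k _ => ?_
    rw [map_smul, hv t ht, smul_smul, hc', mul_comm]
  have hcc' : ‖c‖ ≤ ‖c'‖ := by
    rw [pi_norm_le_iff_of_nonneg (norm_nonneg _)]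
    intro k
    refine le_trans ?_ (norm_le_pi_norm c' k)
    rw [hc']
    simp only [norm_mul, Complex.norm_exp]
    have h1 : 1 ≤ Real.exp ((lam (a k) * t).re) := by
      rw [Real.one_le_exp_iff]
      have : (lam (a k) * t).re = (lam (a k)).re * t := by
        simp [Complex.mul_re]
      rw [this]
      exact mul_nonneg (hre _) ht
    calc ‖c k‖ = 1 * ‖c k‖ := (one_mul _).symm
      _ ≤ Real.exp ((lam (a k) * t).re) * ‖c k‖ := by gcongr
  have hKc : ‖c'‖ ≤ K * ‖L c'‖ := by
    have := hK.le_mul_dist c' 0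
    simpa [dist_eq_norm] using this
  rw [hSt]
  calc ‖L c‖ = ‖Lc c‖ := rfl
    _ ≤ ‖Lc‖ * ‖c‖ := Lc.le_opNorm c
    _ ≤ ‖Lc‖ * (K * ‖L c'‖) := by
      gcongr
      exact hcc'.trans hKc
    _ = ‖Lc‖ * K * ‖L c'‖ := by ring

/-- **QC3 for eigenmodes.** `E` is the span of finitely many exact eigenvectors with
`0 ≤ Re lam i`. -/
theorem exists_projection_of_modes (hS : IsC0 S) {ι : Type*} [Finite ι] (v : ι → X) (lam : ι → ℂ)
    (hv : ∀ t, 0 ≤ t → ∀ i, S t (v i) = Complex.exp (lam i * t) • v i)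
    (hre : ∀ i, 0 ≤ (lam i).re) (hqc : QuasiCompact (S 1))
    (hH : ∀ (z : ℂ), 0 ≤ z.re → ∀ x,
      (∀ t : ℝ, 0 ≤ t → S t x - Complex.exp (z * t) • x ∈ Submodule.span ℂ (Set.range v)) →
      x ∈ Submodule.span ℂ (Set.range v)) :
    ∃ P : X →L[ℂ] X, (∀ x, P x ∈ Submodule.span ℂ (Set.range v)) ∧
      (∀ x ∈ Submodule.span ℂ (Set.range v), P x = x) ∧
      (∀ t, 0 ≤ t → ∀ x, P (S t x) = S t (P x)) ∧
      (∃ C δ : ℝ, 0 < C ∧ 0 < δ ∧ ∀ t, 0 ≤ t → ∀ x, ‖S t (x - P x)‖ ≤ C * Real.exp (-δ * t) * ‖x‖) ∧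
      (∀ g : X →+ X, Continuous g → (∀ x ∈ Submodule.span ℂ (Set.range v),
        g x ∈ Submodule.span ℂ (Set.range v)) → (∀ x, g (S 1 x) = S 1 (g x)) →
        ∀ x, P (g x) = g (P x)) := by
  obtain ⟨C₀, hC₀⟩ := span_backward v lam hv hre
  have : FiniteDimensional ℂ (Submodule.span ℂ (Set.range v)) :=
    FiniteDimensional.span_of_finite ℂ (Set.finite_range v)
  exact hS.exists_projection _ (span_invariant v lam hv) hC₀ hqc hH

end IsC0

end Vale.P139.QC
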