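import Mathlib

/-!
# Quasi-compact operators and semigroups: exponential dichotomy modulo a finite dimensional
invariant space
-/

open Filter Topology
open scoped NNReal ENNReal

namespace Vale.P139.QC

variable {X : Type*} [NormedAddCommGroup X] [NormedSpace ℂ X]

/-! ### Geometric bounds from one small power -/

/-- If a power of `T` has norm `< 1`, then all powers are geometrically bounded. -/
theorem exists_geometric_of_norm_pow_lt_one (T : X →L[ℂ] X) {M : ℕ} (hM : 0 < M)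
    (h : ‖T ^ M‖ < 1) :
    ∃ C q : ℝ, 0 < C ∧ 0 < q ∧ q < 1 ∧ ∀ n : ℕ, ‖T ^ n‖ ≤ C * q ^ n := by
  set r : ℝ := max ‖T ^ M‖ (1 / 2) with hr
  have hr0 : 0 < r := lt_of_lt_of_le (by norm_num) (le_max_right _ _)
  have hr1 : r < 1 := max_lt h (by norm_num)
  set q : ℝ := r ^ ((1 : ℝ) / M) with hq
  have hMr : (0 : ℝ) < M := by exact_mod_cast hM
  have hq0 : 0 < q := Real.rpow_pos_of_pos hr0 _
  have hq1 : q < 1 := Real.rpow_lt_one hr0.le hr1 (by positivity)
  have hqM : q ^ M = r := by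
    rw [hq, ← Real.rpow_natCast, ← Real.rpow_mul hr0.le]
    rw [one_div, inv_mul_cancel₀ hMr.ne', Real.rpow_one]
  set C0 : ℝ := 1 + ∑ j ∈ Finset.range M, ‖T ^ j‖ with hC0
  have hC0pos : 0 < C0 := by
    have : 0 ≤ ∑ j ∈ Finset.range M, ‖T ^ j‖ := Finset.sum_nonneg (fun _ _ => norm_nonneg _)
    linarith
  have hC0le : ∀ j < M, ‖T ^ j‖ ≤ C0 := by
    intro j hj
    have : ‖T ^ j‖ ≤ ∑ j ∈ Finset.range M, ‖T ^ j‖ :=
      Finset.single_le_sum (f := fun j => ‖T ^ j‖) (fun _ _ => norm_nonneg _)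
        (Finset.mem_range.2 hj)
    linarith
  refine ⟨C0 / q ^ M, q, by positivity, hq0, hq1, ?_⟩
  intro n
  have hn : n = M * (n / M) + n % M := (Nat.div_add_mod n M).symm
  have hmod : n % M < M := Nat.mod_lt _ hM
  have h1 : ‖T ^ n‖ ≤ ‖T ^ M‖ ^ (n / M) * ‖T ^ (n % M)‖ := by
    rcases Nat.eq_zero_or_pos (n / M) with h0 | h0
    · have : n % M = n := by
        conv_rhs => rw [hn]
        rw [h0]; simp
      rw [h0, this]; simp
    · conv_lhs => rw [hn, pow_add, pow_mul]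
      refine (norm_mul_le _ _).trans ?_
      gcongr
      exact norm_pow_le' _ h0
  have h2 : ‖T ^ M‖ ^ (n / M) ≤ r ^ (n / M) := by
    gcongr
    exact le_max_left _ _
  have h3 : r ^ (n / M) * q ^ (n % M) = q ^ n := by
    rw [← hqM, ← pow_mul, ← pow_add, ← hn]
  have h4 : q ^ M ≤ q ^ (n % M) := pow_le_pow_of_le_one hq0.le hq1.le hmod.le
  calc ‖T ^ n‖ ≤ ‖T ^ M‖ ^ (n / M) * ‖T ^ (n % M)‖ := h1
    _ ≤ r ^ (n / M) * C0 := by
        gcongr
        exact hC0le _ hmod
    _ = C0 / q ^ M * (r ^ (n / M) * q ^ M) := by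
        field_simp
    _ ≤ C0 / q ^ M * (r ^ (n / M) * q ^ (n % M)) := by gcongr
    _ = C0 / q ^ M * q ^ n := by rw [h3]

/-- An eigenvector of a positive power gives an eigenvector of the operator. -/
theorem exists_eigenvector_of_pow (T : X →ₗ[ℂ] X) {N : ℕ} (hN : 0 < N) {μ : ℂ} {x : X}
    (hx : x ≠ 0) (h : (T ^ N) x = μ • x) :
    ∃ (ν : ℂ) (y : X), y ≠ 0 ∧ T y = ν • y ∧ ν ^ N = μ := by
  classical
  set W : Submodule ℂ X := Submodule.span ℂ (Set.range (fun i : Fin N => (T ^ (i : ℕ)) x)) with hW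
  have hTN : ∀ i : ℕ, (T ^ N) ((T ^ i) x) = μ • (T ^ i) x := by
    intro i
    have : (T ^ N) ((T ^ i) x) = (T ^ i) ((T ^ N) x) := by
      rw [← Module.End.mul_apply, ← Module.End.mul_apply, ← pow_add, ← pow_add, add_comm]
    rw [this, h, map_smul]
  have hWT : ∀ y ∈ W, T y ∈ W := by
    intro y hy
    refine Submodule.span_induction (p := fun y _ => T y ∈ W) ?_ ?_ ?_ ?_ hy
    · rintro _ ⟨i, rfl⟩
      show T ((T ^ (i : ℕ)) x) ∈ W
      have : T ((T ^ (i : ℕ)) x) = (T ^ ((i : ℕ) + 1)) x := by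
        rw [pow_succ', Module.End.mul_apply]
      rw [this]
      rcases Nat.lt_or_ge ((i : ℕ) + 1) N with hi | hi
      · exact Submodule.subset_span ⟨⟨(i : ℕ) + 1, hi⟩, rfl⟩
      · have hi' : (i : ℕ) + 1 = N := le_antisymm i.2 hi
        rw [hi', h]
        refine W.smul_mem _ ?_
        refine Submodule.subset_span ⟨⟨0, hN⟩, ?_⟩
        simp
    · simp
    · intro a b _ _ ha hb
      rw [map_add]; exact W.add_mem ha hb
    · intro c a _ ha
      rw [map_smul]; exact W.smul_mem _ ha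
  have hxW : x ∈ W := Submodule.subset_span ⟨⟨0, hN⟩, by simp⟩
  have hWfin : FiniteDimensional ℂ W := FiniteDimensional.span_of_finite ℂ (Set.finite_range _)
  have hNW : Nontrivial W := ⟨⟨⟨x, hxW⟩, 0, fun hh => hx (by simpa using congrArg Subtype.val hh)⟩⟩
  obtain ⟨ν, hν⟩ := Module.End.exists_eigenvalue (T.restrict hWT)
  obtain ⟨y, hy⟩ := hν.exists_hasEigenvector
  have hy1 : T (y : X) = ν • (y : X) := by
    have := congrArg Subtype.val hy.apply_eq_smul
    simpa using this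
  have hy0 : (y : X) ≠ 0 := fun hh => hy.2 (Subtype.ext hh)
  refine ⟨ν, y, hy0, hy1, ?_⟩
  have hpow : ∀ n : ℕ, (T ^ n) (y : X) = ν ^ n • (y : X) := by
    intro n
    induction n with
    | zero => simp
    | succ n ih =>
      rw [pow_succ', Module.End.mul_apply, ih, map_smul, hy1, smul_smul, pow_succ]
  have hμy : (T ^ N) (y : X) = μ • (y : X) := by
    have hall : ∀ z ∈ W, (T ^ N) z = μ • z := by
      intro z hz
      refine Submodule.span_induction (p := fun z _ => (T ^ N) z = μ • z) ?_ ?_ ?_ ?_ hz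
      · rintro _ ⟨i, rfl⟩
        exact hTN i
      · simp
      · intro a b _ _ ha hb
        rw [map_add, ha, hb, smul_add]
      · intro c a _ ha
        rw [map_smul, ha, smul_comm]
    exact hall y y.2
  rw [hpow] at hμy
  have : (ν ^ N - μ) • (y : X) = 0 := by rw [sub_smul, hμy, sub_self]
  rcases smul_eq_zero.1 this with h' | h'
  · exact sub_eq_zero.1 h'
  · exact absurd h' hy0

/-- Powers of a contraction plus a compact operator. -/
theorem exists_pow_add_compact {A K T : X →L[ℂ] X} (hT : T = A + K) (hK : IsCompactOperator K)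
    (j : ℕ) : ∃ K' : X →L[ℂ] X, IsCompactOperator K' ∧ T ^ j = A ^ j + K' := by
  induction j with
  | zero => exact ⟨0, by simpa using (isCompactOperator_zero : IsCompactOperator (0 : X → X)),
      by simp⟩
  | succ j ih =>
    obtain ⟨K', hK', h⟩ := ih
    refine ⟨A ^ j * K + K' * T, ?_, ?_⟩
    · have h1 : IsCompactOperator (A ^ j * K) := by
        exact hK.clm_comp (A ^ j)
      have h2 : IsCompactOperator (K' * T) := by
        exact hK'.comp_clm T
      exact h1.add h2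
    · rw [pow_succ, h, add_mul]
      nth_rewrite 1 [hT]
      rw [mul_add, pow_succ, add_assoc]

variable [CompleteSpace X]

/-- If `B = A + K`, `‖A‖ < 1`, `K` compact, `1 ≤ ‖μ‖`, then either `μ` is an eigenvalue of `B`
or `μ - B` is invertible. -/
theorem eigenvector_or_isUnit {A K B : X →L[ℂ] X} (hB : B = A + K) (hA : ‖A‖ < 1)
    (hK : IsCompactOperator K) {μ : ℂ} (hμ : 1 ≤ ‖μ‖) :
    (∃ x : X, x ≠ 0 ∧ B x = μ • x) ∨ μ ∈ resolventSet ℂ B := by
  have hunit : IsUnit (algebraMap ℂ (X →L[ℂ] X) μ - A) := by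
    have : μ ∈ resolventSet ℂ A := by
      refine spectrum.mem_resolventSet_of_norm_lt_mul ?_
      have : ‖A‖ * ‖(1 : X →L[ℂ] X)‖ ≤ ‖A‖ * 1 := by
        gcongr
        exact ContinuousLinearMap.norm_id_le
      linarith
    exact this
  obtain ⟨u, hu⟩ := hunit
  set R : X →L[ℂ] X := ((u⁻¹ : (X →L[ℂ] X)ˣ) : X →L[ℂ] X) with hR
  have hRK : IsCompactOperator (R * K) := hK.clm_comp R
  have hfac : algebraMap ℂ (X →L[ℂ] X) μ - B = (u : X →L[ℂ] X) * (1 - R * K) := by
    rw [mul_sub, mul_one, ← mul_assoc, hR, Units.mul_inv, one_mul, hu, hB]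
    abel
  rcases hRK.hasEigenvalue_or_mem_resolventSet (one_ne_zero (α := ℂ)) with h | h
  · left
    obtain ⟨x, hx⟩ := h.exists_hasEigenvector
    have hx1 : (R * K) x = x := by
      have := hx.apply_eq_smul
      simpa using this
    refine ⟨x, hx.2, ?_⟩
    have h2 : (algebraMap ℂ (X →L[ℂ] X) μ - B) x = 0 := by
      rw [hfac, mul_apply_eq_comp]
      have : (1 - R * K) x = 0 := by
        rw [sub_apply, hx1]
        simp
      rw [this, map_zero]
    rw [sub_apply, Algebra.algebraMap_eq_smul_one,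
      smul_apply, one_apply_eq_self] at h2
    exact (sub_eq_zero.1 h2).symm
  · right
    have h1 : IsUnit ((1 : X →L[ℂ] X) - R * K) := by
      have := h
      rw [spectrum.mem_resolventSet_iff, map_one] at this
      exact this
    rw [spectrum.mem_resolventSet_iff, hfac]
    exact u.isUnit.mul h1


/-- **QC1, spectral part.** If `T1` is quasi-compact (some positive power is a strict contraction
plus a compact operator) and has no eigenvector with eigenvalue of modulus `≥ 1`, then its powers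
decay geometrically. -/
theorem geometric_of_no_eigenvector {T : X →L[ℂ] X} {n₀ : ℕ} (hn₀ : 0 < n₀)
    {A K : X →L[ℂ] X} (hT : T ^ n₀ = A + K) (hA : ‖A‖ < 1) (hK : IsCompactOperator K)
    (hev : ∀ (μ : ℂ) (x : X), 1 ≤ ‖μ‖ → T x = μ • x → x = 0) :
    ∃ C q : ℝ, 0 < C ∧ 0 < q ∧ q < 1 ∧ ∀ n : ℕ, ‖T ^ n‖ ≤ C * q ^ n := by
  rcases subsingleton_or_nontrivial X with hX | hX
  · refine ⟨1, 1 / 2, one_pos, by norm_num, by norm_num, fun n => ?_⟩
    have : T ^ n = 0 := Subsingleton.elim _ _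
    rw [this, norm_zero]; positivity
  set B := T ^ n₀ with hBdef
  have hspec : ∀ k ∈ spectrum ℂ B, ‖k‖₊ < 1 := by
    intro k hk
    by_contra hlt
    have hk1 : 1 ≤ ‖k‖ := by
      have : (1 : ℝ≥0) ≤ ‖k‖₊ := not_lt.1 hlt
      exact_mod_cast this
    rcases eigenvector_or_isUnit hT hA hK hk1 with ⟨x, hx, hBx⟩ | hres
    · have hBx' : (((T : X →ₗ[ℂ] X)) ^ n₀) x = k • x := by
        have h1 : ((T ^ n₀ : X →L[ℂ] X) : X → X) x = (((T : X →ₗ[ℂ] X)) ^ n₀) x := by
          rw [← ContinuousLinearMap.coe_coe, ContinuousLinearMap.toLinearMap_pow]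
        rw [← h1]; exact hBx
      obtain ⟨ν, y, hy, hTy, hν⟩ := exists_eigenvector_of_pow (T : X →ₗ[ℂ] X) hn₀ hx hBx'
      have hν1 : 1 ≤ ‖ν‖ := by
        by_contra hν1
        push Not at hν1
        have : ‖ν‖ ^ n₀ < 1 := pow_lt_one₀ (norm_nonneg _) hν1 hn₀.ne'
        rw [← norm_pow, hν] at this
        linarith
      exact hy (hev ν y hν1 hTy)
    · exact hk hres
  have hrad : spectralRadius ℂ B < ((1 : ℝ≥0) : ℝ≥0∞) := spectrum.spectralRadius_lt_of_forall_lt B hspec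
  have hG := spectrum.pow_nnnorm_pow_one_div_tendsto_nhds_spectralRadius B
  have hev2 := (hG.eventually (gt_mem_nhds hrad)).and (eventually_ge_atTop 1)
  obtain ⟨m, hm, hm1⟩ := hev2.exists
  have hBm : ‖B ^ m‖ < 1 := by
    have hmpos : (0 : ℝ) < m := by exact_mod_cast hm1
    have h2 : ((‖B ^ m‖₊ : ℝ≥0∞)) < 1 := by
      by_contra hge
      push Not at hge
      have : (1 : ℝ≥0∞) ≤ (‖B ^ m‖₊ : ℝ≥0∞) ^ (1 / (m : ℝ)) :=
        ENNReal.one_le_rpow hge (by positivity)
      simp only [ENNReal.coe_one] at hm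
      exact absurd hm (not_lt.2 this)
    have h3 : ‖B ^ m‖₊ < 1 := by exact_mod_cast h2
    exact_mod_cast h3
  have : ‖T ^ (n₀ * m)‖ < 1 := by
    rw [pow_mul]; exact hBm
  exact exists_geometric_of_norm_pow_lt_one T (Nat.mul_pos hn₀ hm1) this

/-- Data of QC: a bounded operator, one power of which is contraction plus compact. -/
def QuasiCompact (T : X →L[ℂ] X) : Prop :=
  ∃ n₀ : ℕ, 0 < n₀ ∧ ∃ A K : X →L[ℂ] X, T ^ n₀ = A + K ∧ ‖A‖ < 1 ∧ IsCompactOperator K

omit [CompleteSpace X] in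
/-- `T = A + K` with `‖A ^ n‖ ≤ C ρ ^ n`, `ρ < 1`, `K` compact, is quasi-compact. -/
theorem QuasiCompact.of_geometric {T A K : X →L[ℂ] X} (hT : T = A + K)
    {C ρ : ℝ} (hρ : ρ < 1) (hρ0 : 0 ≤ ρ) (hA : ∀ n : ℕ, ‖A ^ n‖ ≤ C * ρ ^ n)
    (hK : IsCompactOperator K) : QuasiCompact T := by
  have hlim : Tendsto (fun n : ℕ => C * ρ ^ n) atTop (𝓝 (C * 0)) :=
    (tendsto_pow_atTop_nhds_zero_of_lt_one hρ0 hρ).const_mul C
  rw [mul_zero] at hlim
  obtain ⟨j, hj, hj1⟩ := ((hlim.eventually (gt_mem_nhds one_pos)).and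
    (eventually_ge_atTop 1)).exists
  obtain ⟨K', hK', h⟩ := exists_pow_add_compact hT hK j
  exact ⟨j, hj1, A ^ j, K', h, lt_of_le_of_lt (hA j) hj, hK'⟩

omit [CompleteSpace X] in
theorem QuasiCompact.of_norm_lt_one {T A K : X →L[ℂ] X} (hT : T = A + K)
    (hA : ‖A‖ < 1) (hK : IsCompactOperator K) : QuasiCompact T :=
  ⟨1, one_pos, A, K, by rw [pow_one, hT], hA, hK⟩

/-- **QC1.** `T` quasi-compact, `E` invariant with continuous projection `P₁` onto it
and no eigenvector modulo `E` with eigenvalue of modulus `≥ 1`; then `T ^ n` decays modulo `E`. -/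
theorem QuasiCompact.decay_mod {T : X →L[ℂ] X} (hT : QuasiCompact T) (E : Submodule ℂ X)
    (hE : ∀ x ∈ E, T x ∈ E) (P₁ : X →L[ℂ] X) (hP₁ : ∀ x, P₁ x ∈ E) (hP₁E : ∀ x ∈ E, P₁ x = x)
    (hH : ∀ (μ : ℂ) (x : X), 1 ≤ ‖μ‖ → T x - μ • x ∈ E → x ∈ E) :
    ∃ C q : ℝ, 0 < C ∧ 0 < q ∧ q < 1 ∧ ∀ n : ℕ, ‖(1 - P₁) * T ^ n‖ ≤ C * q ^ n := by
  obtain ⟨n₀, hn₀, A, K, hTn, hA, hK⟩ := hT
  set Q : X →L[ℂ] X := 1 - P₁ with hQ
  have hQE : ∀ x ∈ E, Q x = 0 := by
    intro x hx
    rw [hQ, sub_apply, one_apply_eq_self, hP₁E x hx, sub_self]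
  have hQker : ∀ x, Q x = 0 → x ∈ E := by
    intro x hx
    rw [hQ, sub_apply, one_apply_eq_self, sub_eq_zero] at hx
    rw [hx]; exact hP₁ x
  have hdiff : ∀ x, x - Q x ∈ E := by
    intro x
    have : x - Q x = P₁ x := by
      rw [hQ, sub_apply, one_apply_eq_self]; abel
    rw [this]; exact hP₁ x
  have hQQ : ∀ x, Q (Q x) = Q x := by
    intro x
    have h := hQE _ (hdiff x)
    rw [map_sub, sub_eq_zero] at h
    exact h.symm
  -- `Q T Q = Q T`
  have hQTQ : ∀ x, Q (T (Q x)) = Q (T x) := by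
    intro x
    have h := hQE _ (hE _ (hdiff x))
    rw [map_sub, map_sub, sub_eq_zero] at h
    exact h.symm
  set T₁ : X →L[ℂ] X := Q * T with hT₁
  have hpow : ∀ n : ℕ, 0 < n → T₁ ^ n = Q * T ^ n := by
    intro n hn
    induction n, hn using Nat.le_induction with
    | base => rw [pow_one, pow_one]
    | succ n hn ih =>
      rw [pow_succ', ih]
      ext x
      have h1 : (T₁ * (Q * T ^ n)) x = Q (T (Q ((T ^ n) x))) := rfl
      have h2 : (Q * T ^ (n + 1)) x = Q (T ((T ^ n) x)) := by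
        rw [pow_succ']; rfl
      rw [h1, h2, hQTQ]
  -- a power of `T₁` is a contraction plus a compact operator
  have hlim : Tendsto (fun n : ℕ => ‖Q‖ * ‖A‖ ^ n) atTop (𝓝 (‖Q‖ * 0)) :=
    (tendsto_pow_atTop_nhds_zero_of_lt_one (norm_nonneg _) hA).const_mul _
  rw [mul_zero] at hlim
  obtain ⟨j, hj, hj1⟩ := ((hlim.eventually (gt_mem_nhds one_pos)).and
    (eventually_ge_atTop 1)).exists
  obtain ⟨K', hK', hKj⟩ := exists_pow_add_compact hTn hK j
  have hT₁pow : T₁ ^ (n₀ * j) = Q * A ^ j + Q * K' := by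
    rw [hpow _ (Nat.mul_pos hn₀ hj1), pow_mul, hKj, mul_add]
  have hnorm : ‖Q * A ^ j‖ < 1 := by
    refine lt_of_le_of_lt ((norm_mul_le _ _).trans ?_) hj
    gcongr
    exact norm_pow_le' _ hj1
  have hcomp : IsCompactOperator (Q * K') := hK'.clm_comp Q
  obtain ⟨C, q, hC, hq0, hq1, hbound⟩ := geometric_of_no_eigenvector
    (Nat.mul_pos hn₀ hj1) hT₁pow hnorm hcomp (by
      intro μ x hμ hx
      have hμ0 : μ ≠ 0 := by
        rintro rfl
        rw [norm_zero] at hμ
        linarith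
      have hx1 : Q (T x) = μ • x := hx
      have hQx : Q x = x := by
        have : Q (μ • x) = μ • x := by rw [← hx1, hQQ]
        rw [map_smul] at this
        exact smul_right_injective X hμ0 this
      have hmem : T x - μ • x ∈ E := by
        apply hQker
        rw [map_sub, hx1, map_smul, hQx, sub_self]
      have := hH μ x hμ hmem
      rw [← hQx]
      exact hQE x this)
  refine ⟨max C (‖Q‖), q, lt_of_lt_of_le hC (le_max_left _ _), hq0, hq1, ?_⟩
  intro n
  rcases Nat.eq_zero_or_pos n with rfl | hn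
  · simp only [pow_zero, mul_one]
    exact le_max_right _ _
  · rw [← hpow n hn]
    refine (hbound n).trans ?_
    gcongr
    exact le_max_left _ _


/-- **QC2.** Spectral projection onto `E` commuting with `T`, with decay on the complement. -/
theorem QuasiCompact.exists_projection {T : X →L[ℂ] X} (hT : QuasiCompact T)
    (E : Submodule ℂ X) [FiniteDimensional ℂ E]
    (hE : ∀ x ∈ E, T x ∈ E) {C₀ : ℝ} (hinv : ∀ n : ℕ, ∀ x ∈ E, ‖x‖ ≤ C₀ * ‖(T ^ n) x‖)
    (hH : ∀ (μ : ℂ) (x : X), 1 ≤ ‖μ‖ → T x - μ • x ∈ E → x ∈ E) :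
    ∃ P : X →L[ℂ] X, (∀ x, P x ∈ E) ∧ (∀ x ∈ E, P x = x) ∧ (∀ x, P (T x) = T (P x)) ∧
      ∃ C q : ℝ, 0 < C ∧ 0 < q ∧ q < 1 ∧ ∀ n : ℕ, ‖T ^ n * (1 - P)‖ ≤ C * q ^ n := by
  obtain ⟨f, hf⟩ := Submodule.ClosedComplemented.of_finiteDimensional (𝕜 := ℂ) E
  set P₁ : X →L[ℂ] X := E.subtypeL ∘L f with hP₁def
  have hP₁ : ∀ x, P₁ x ∈ E := fun x => (f x).2
  have hP₁E : ∀ x ∈ E, P₁ x = x := by
    intro x hx
    have := hf ⟨x, hx⟩
    show ((f x : E) : X) = x
    exact congrArg Subtype.val this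
  obtain ⟨C, q, hC, hq0, hq1, hdec⟩ := hT.decay_mod E hE P₁ hP₁ hP₁E hH
  have hC₀ : 0 ≤ max C₀ 0 := le_max_right _ _
  -- the restriction of `T` to `E` as a linear equivalence
  set TE : E →ₗ[ℂ] E := (T : X →ₗ[ℂ] X).restrict hE with hTE
  have hTEinj : Function.Injective TE := by
    rw [injective_iff_map_eq_zero]
    intro e he
    have h1 := hinv 1 (e : X) e.2
    have h2 : T (e : X) = 0 := by
      have := congrArg Subtype.val he
      simpa [hTE] using this
    rw [pow_one, h2, norm_zero, mul_zero] at h1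
    exact Subtype.ext (norm_le_zero_iff.1 h1)
  have hpowE : ∀ (n : ℕ) (e : E), (((TE ^ n) e : E) : X) = (T ^ n) (e : X) := by
    intro n
    induction n with
    | zero => intro e; simp
    | succ n ih =>
      intro e
      rw [pow_succ, pow_succ, Module.End.mul_apply, ih]
      rfl
  have hinj : ∀ n : ℕ, Function.Injective (TE ^ n) := by
    intro n
    rw [injective_iff_map_eq_zero]
    intro e he
    have h1 := hinv n (e : X) e.2
    rw [← hpowE, he] at h1
    simp at h1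
    exact h1
  have hsurj : ∀ n : ℕ, Function.Surjective (TE ^ n) := fun n =>
    LinearMap.injective_iff_surjective.1 (hinj n)
  -- right inverses of the powers on `E`
  have hR : ∀ n : ℕ, ∃ R : E →L[ℂ] E, (∀ e, (TE ^ n) (R e) = e) ∧ ‖R‖ ≤ max C₀ 0 := by
    intro n
    set L := LinearEquiv.ofBijective (TE ^ n) ⟨hinj n, hsurj n⟩ with hL
    have hLs : ∀ e, (TE ^ n) (L.symm e) = e := fun e => L.apply_symm_apply e
    refine ⟨LinearMap.toContinuousLinearMap (L.symm : E →ₗ[ℂ] E), hLs, ?_⟩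
    refine ContinuousLinearMap.opNorm_le_bound _ hC₀ fun e => ?_
    have h1 := hinv n ((L.symm e : E) : X) (L.symm e).2
    rw [← hpowE, hLs] at h1
    calc ‖LinearMap.toContinuousLinearMap (L.symm : E →ₗ[ℂ] E) e‖ = ‖((L.symm e : E) : X)‖ := rfl
      _ ≤ C₀ * ‖(e : X)‖ := h1
      _ ≤ max C₀ 0 * ‖e‖ := by
        gcongr
        · exact le_max_left _ _
        · exact le_rfl
  choose R hR1 hR2 using hR
  have hRinj : ∀ (n : ℕ) (e e' : E), (TE ^ n) e = e' → R n e' = e := by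
    intro n e e' h
    apply hinj n
    rw [hR1, h]
  set Pn : ℕ → X →L[ℂ] X := fun n => E.subtypeL ∘L (R n) ∘L f ∘L (T ^ n) with hPn
  have hPnapp : ∀ n x, Pn n x = ((R n (f ((T ^ n) x)) : E) : X) := fun n x => rfl
  -- difference of consecutive terms
  have hstep : ∀ n x, Pn (n + 1) x - Pn n x =
      ((R (n + 1) (f (T ((1 - P₁) ((T ^ n) x)))) : E) : X) := by
    intro n x
    rw [hPnapp, hPnapp]
    set z := (T ^ n) x with hz
    have h1 : (T ^ (n + 1)) x = T z := by rw [pow_succ']; rfl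
    have h2 : R n (f z) = R (n + 1) (TE (f z)) := by
      symm
      apply hRinj
      rw [pow_succ', Module.End.mul_apply, hR1]
    rw [h1, h2, ← Submodule.coe_sub, ← map_sub]
    congr 2
    have h3 : f (T (P₁ z)) = TE (f z) := by
      have h4 : T (P₁ z) = ((TE (f z) : E) : X) := rfl
      rw [h4, hf]
    rw [sub_apply, one_apply_eq_self, map_sub, map_sub, h3]
  set D : ℝ := max C₀ 0 * (‖f‖ * ‖T‖ * C) with hD
  have hD0 : 0 ≤ D := by positivity
  have hdist : ∀ n, dist (Pn n) (Pn (n + 1)) ≤ D * q ^ n := by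
    intro n
    rw [dist_comm, dist_eq_norm]
    refine ContinuousLinearMap.opNorm_le_bound _ (by positivity) fun x => ?_
    rw [sub_apply, hstep]
    calc ‖((R (n + 1) (f (T ((1 - P₁) ((T ^ n) x)))) : E) : X)‖
        = ‖R (n + 1) (f (T ((1 - P₁) ((T ^ n) x))))‖ := rfl
      _ ≤ ‖R (n + 1)‖ * ‖f (T ((1 - P₁) ((T ^ n) x)))‖ := ContinuousLinearMap.le_opNorm _ _
      _ ≤ max C₀ 0 * (‖f‖ * (‖T‖ * (C * q ^ n * ‖x‖))) := by
          gcongr
          · exact hR2 _
          · refine (ContinuousLinearMap.le_opNorm _ _).trans ?_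
            gcongr
            refine (ContinuousLinearMap.le_opNorm _ _).trans ?_
            gcongr
            have h5 : (1 - P₁) ((T ^ n) x) = ((1 - P₁) * T ^ n) x := rfl
            rw [h5]
            refine (ContinuousLinearMap.le_opNorm _ _).trans ?_
            gcongr
            exact hdec n
      _ = D * q ^ n * ‖x‖ := by rw [hD]; ring
  have hcau : CauchySeq Pn := cauchySeq_of_le_geometric q D hq1 hdist
  obtain ⟨P, hP⟩ := cauchySeq_tendsto_of_complete hcau
  have hPx : ∀ x, Tendsto (fun n => Pn n x) atTop (𝓝 (P x)) := by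
    intro x
    have h1 : Continuous fun L : X →L[ℂ] X => L x :=
      (ContinuousLinearMap.apply ℂ X x).continuous
    exact (h1.tendsto P).comp hP
  have hclosed : IsClosed (E : Set X) := E.closed_of_finiteDimensional
  have hPE : ∀ x, P x ∈ E := by
    intro x
    refine hclosed.mem_of_tendsto (hPx x) (Eventually.of_forall fun n => ?_)
    exact (R n (f ((T ^ n) x))).2
  have hPid : ∀ x ∈ E, P x = x := by
    intro x hx
    have h1 : ∀ n, Pn n x = x := by
      intro n
      have h2 : (T ^ n) x = (((TE ^ n) ⟨x, hx⟩ : E) : X) := (hpowE n ⟨x, hx⟩).symm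
      rw [hPnapp, h2, hf, hRinj n ⟨x, hx⟩ _ rfl]
    have h3 := hPx x
    simp only [h1] at h3
    exact (tendsto_nhds_unique h3 tendsto_const_nhds)
  have hcomm : ∀ x, P (T x) = T (P x) := by
    intro x
    have h1 : Tendsto (fun n => Pn n (T x)) atTop (𝓝 (P (T x))) := hPx (T x)
    have h2 : Tendsto (fun n => T (Pn (n + 1) x)) atTop (𝓝 (T (P x))) :=
      (T.continuous.tendsto _).comp ((hPx x).comp (tendsto_add_atTop_nat 1))
    have h3 : ∀ n, Pn n (T x) = T (Pn (n + 1) x) := by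
      intro n
      rw [hPnapp, hPnapp]
      have h4 : (T ^ n) (T x) = (T ^ (n + 1)) x := by rw [pow_succ]; rfl
      rw [h4]
      set e := f ((T ^ (n + 1)) x) with he
      have h5 : R n e = TE (R (n + 1) e) := by
        apply hRinj
        have h6 := hR1 (n + 1) e
        rw [pow_succ, Module.End.mul_apply] at h6
        exact h6
      rw [h5]
      rfl
    simp only [h3] at h1
    exact tendsto_nhds_unique h1 h2
  refine ⟨P, hPE, hPid, hcomm, (‖(1 : X →L[ℂ] X) - P‖ + 1) * C, q, by positivity, hq0, hq1, ?_⟩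
  intro n
  have hcommn : ∀ x, P ((T ^ n) x) = (T ^ n) (P x) := by
    intro x
    induction n generalizing x with
    | zero => simp
    | succ n ih =>
      have h7 : ∀ z, (T ^ (n + 1)) z = (T ^ n) (T z) := fun z => by rw [pow_succ]; rfl
      rw [h7, h7, ih, hcomm]
  refine ContinuousLinearMap.opNorm_le_bound _ (by positivity) fun x => ?_
  have h8 : (T ^ n * (1 - P)) x = (1 - P) (((1 - P₁) * T ^ n) x) := by
    have h9 : (T ^ n * (1 - P)) x = (T ^ n) x - (T ^ n) (P x) := by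
      rw [mul_apply_eq_comp, sub_apply, one_apply_eq_self, map_sub]
    have h10 : ((1 - P₁) * T ^ n) x = (T ^ n) x - P₁ ((T ^ n) x) := by
      rw [mul_apply_eq_comp, sub_apply, one_apply_eq_self]
    rw [h9, h10, sub_apply, one_apply_eq_self, map_sub, hcommn, hPid _ (hP₁ _)]
    abel
  rw [h8]
  calc ‖(1 - P) (((1 - P₁) * T ^ n) x)‖ ≤ ‖(1 : X →L[ℂ] X) - P‖ * ‖((1 - P₁) * T ^ n) x‖ :=
        ContinuousLinearMap.le_opNorm _ _
    _ ≤ (‖(1 : X →L[ℂ] X) - P‖ + 1) * (C * q ^ n * ‖x‖) := by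
        gcongr
        · linarith
        · refine (ContinuousLinearMap.le_opNorm _ _).trans ?_
          gcongr
          exact hdec n
    _ = (‖(1 : X →L[ℂ] X) - P‖ + 1) * C * q ^ n * ‖x‖ := by ring

omit [CompleteSpace X] in
/-- Dynamical characterisation: any continuous additive map commuting with `T` and preserving `E`
commutes with the projection. -/
theorem projection_comm {T P : X →L[ℂ] X} (E : Submodule ℂ X)
    {C₀ : ℝ} (hinv : ∀ n : ℕ, ∀ x ∈ E, ‖x‖ ≤ C₀ * ‖(T ^ n) x‖)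
    (hPE : ∀ x, P x ∈ E) (hPid : ∀ x ∈ E, P x = x) (hcomm : ∀ x, P (T x) = T (P x))
    {C q : ℝ} (hq0 : 0 < q) (hq1 : q < 1) (hdec : ∀ n : ℕ, ‖T ^ n * (1 - P)‖ ≤ C * q ^ n)
    (g : X →+ X) (hg : Continuous g) (hgE : ∀ x ∈ E, g x ∈ E) (hgT : ∀ x, g (T x) = T (g x))
    (x : X) : P (g x) = g (P x) := by
  have hgTn : ∀ (n : ℕ) (z : X), g ((T ^ n) z) = (T ^ n) (g z) := by
    intro n
    induction n with
    | zero => intro z; simp
    | succ n ih =>
      intro z
      have h7 : ∀ z, (T ^ (n + 1)) z = (T ^ n) (T z) := fun z => by rw [pow_succ]; rfl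
      rw [h7, h7, ih, hgT]
  have hcommn : ∀ (n : ℕ) (z : X), P ((T ^ n) z) = (T ^ n) (P z) := by
    intro n
    induction n with
    | zero => intro z; simp
    | succ n ih =>
      intro z
      have h7 : ∀ z, (T ^ (n + 1)) z = (T ^ n) (T z) := fun z => by rw [pow_succ]; rfl
      rw [h7, h7, ih, hcomm]
  set y := x - P x with hy
  have hTy : Tendsto (fun n : ℕ => (T ^ n) y) atTop (𝓝 0) := by
    rw [tendsto_zero_iff_norm_tendsto_zero]
    have hlim : Tendsto (fun n : ℕ => C * q ^ n * ‖x‖) atTop (𝓝 (C * 0 * ‖x‖)) :=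
      ((tendsto_pow_atTop_nhds_zero_of_lt_one hq0.le hq1).const_mul C).mul_const _
    rw [mul_zero, zero_mul] at hlim
    refine squeeze_zero (fun _ => norm_nonneg _) (fun n => ?_) hlim
    have h1 : (T ^ n) y = (T ^ n * (1 - P)) x := by
      rw [mul_apply_eq_comp, sub_apply, one_apply_eq_self]
    rw [h1]
    refine (ContinuousLinearMap.le_opNorm _ _).trans ?_
    gcongr
    exact hdec n
  have hPgy : P (g y) = 0 := by
    have h1 : Tendsto (fun n : ℕ => P (g ((T ^ n) y))) atTop (𝓝 (P (g 0))) :=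
      ((P.continuous.comp hg).tendsto _).comp hTy
    rw [map_zero, map_zero] at h1
    have h2 : Tendsto (fun n : ℕ => C₀ * ‖P (g ((T ^ n) y))‖) atTop (𝓝 (C₀ * ‖(0 : X)‖)) :=
      h1.norm.const_mul _
    rw [norm_zero, mul_zero] at h2
    have h3 : ∀ n : ℕ, ‖P (g y)‖ ≤ C₀ * ‖P (g ((T ^ n) y))‖ := by
      intro n
      rw [hgTn, hcommn]
      exact hinv n _ (hPE _)
    exact norm_le_zero_iff.1 (ge_of_tendsto' h2 h3)
  have hx : x = P x + y := by rw [hy]; abel
  conv_lhs => rw [hx]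
  rw [map_add, map_add, hPgy, add_zero, hPid _ (hgE _ (hPE x))]

end Vale.P139.QC
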