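import Vale.Agent.P139.KU.Evans

/-!
# SB4: the limit argument of block S2 (bounded spectral parameters)
-/

noncomputable section

open Filter Topology Complex ComplexConjugate Vale.Agent.P139.KU

namespace Vale.Agent.P139.H694

/-! ### Two by two algebra -/

/-- A nontrivial kernel vector of `[[F, G], [F', -G']]` forces `F' G + F G' = 0`. -/
theorem alg_det {F G F' G' α β : ℂ} (h1 : α * F + β * G = 0) (h2 : α * F' - β * G' = 0)
    (hn : ¬ (α = 0 ∧ β = 0)) : F' * G + F * G' = 0 := by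
  by_cases hα : α = 0
  · have hβ : β ≠ 0 := fun hβ => hn ⟨hα, hβ⟩
    rw [hα] at h1 h2
    have hG : G = 0 := by
      have : β * G = 0 := by simpa using h1
      exact (mul_eq_zero.1 this).resolve_left hβ
    have hG' : G' = 0 := by
      have : β * G' = 0 := by simpa using h2
      exact (mul_eq_zero.1 this).resolve_left hβ
    rw [hG, hG']; ring
  · have : α * (F' * G + F * G') = 0 := by linear_combination G * h2 + G' * h1
    exact (mul_eq_zero.1 this).resolve_left hα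

/-- Double zero criterion. -/
theorem alg_double {F G F' G' dF dG dF' dG' α β c α0 β0 : ℂ}
    (h01 : α0 * F + β0 * G = 0) (h02 : α0 * F' - β0 * G' = 0) (hn0 : ¬ (α0 = 0 ∧ β0 = 0))
    (h1 : α * F + β * G + c * (α0 * dF + β0 * dG) = 0)
    (h2 : α * F' - β * G' + c * (α0 * dF' - β0 * dG') = 0) (hc : c ≠ 0) :
    dF' * G + F' * dG + (dF * G' + F * dG') = 0 := by
  by_cases hα : α0 = 0
  · have hβ : β0 ≠ 0 := fun hβ => hn0 ⟨hα, hβ⟩
    rw [hα] at h01 h02 h1 h2
    have hG : G = 0 := by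
      have : β0 * G = 0 := by simpa using h01
      exact (mul_eq_zero.1 this).resolve_left hβ
    have hG' : G' = 0 := by
      have : β0 * G' = 0 := by simpa using h02
      exact (mul_eq_zero.1 this).resolve_left hβ
    rw [hG] at h1 ⊢
    rw [hG'] at h2 ⊢
    have : (c * β0) * (F' * dG + F * dG') = 0 := by
      linear_combination F' * h1 - F * h2
    have h3 := (mul_eq_zero.1 this).resolve_left (mul_ne_zero hc hβ)
    linear_combination h3
  · have : (c * (α0 * α0)) * (dF' * G + F' * dG + (dF * G' + F * dG')) = 0 := by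
      linear_combination (α0 * G') * h1 + (α0 * G) * h2
        + (c * (α0 * dG') - α * G') * h01 + (c * (α0 * dG) - α * G) * h02
    exact (mul_eq_zero.1 this).resolve_left (mul_ne_zero hc (mul_ne_zero hα hα))

/-- Two independent kernel vectors force `F = F' = 0`. -/
theorem alg_indep {F G F' G' α β α0 β0 : ℂ}
    (h01 : α0 * F + β0 * G = 0) (h02 : α0 * F' - β0 * G' = 0)
    (h1 : α * F + β * G = 0) (h2 : α * F' - β * G' = 0) (hdet : α * β0 - β * α0 ≠ 0) :
    F = 0 ∧ F' = 0 := by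
  constructor
  · have : (α * β0 - β * α0) * F = 0 := by linear_combination β0 * h1 - β * h01
    exact (mul_eq_zero.1 this).resolve_left hdet
  · have : (α * β0 - β * α0) * F' = 0 := by linear_combination β0 * h2 - β * h02
    exact (mul_eq_zero.1 this).resolve_left hdet

/-- Orthogonality to a nonzero vector excludes proportionality. -/
theorem det_ne_of_orthogonal {α β α0 β0 : ℂ} (ho : α * conj α0 + β * conj β0 = 0)
    (hn0 : ¬ (α0 = 0 ∧ β0 = 0)) (hn : ¬ (α = 0 ∧ β = 0)) : α * β0 - β * α0 ≠ 0 := by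
  intro hdet
  have hs : (α0 * conj α0 + β0 * conj β0) ≠ 0 := by
    rw [Complex.mul_conj, Complex.mul_conj, ← Complex.ofReal_add]
    have h1 := Complex.normSq_nonneg α0
    have h2 := Complex.normSq_nonneg β0
    intro h
    have h3 : Complex.normSq α0 + Complex.normSq β0 = 0 := by exact_mod_cast h
    exact hn0 ⟨Complex.normSq_eq_zero.1 (by linarith), Complex.normSq_eq_zero.1 (by linarith)⟩
  apply hn
  constructor
  · have : (α0 * conj α0 + β0 * conj β0) * α = 0 := by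
      linear_combination α0 * ho + conj β0 * hdet
    exact (mul_eq_zero.1 this).resolve_left hs
  · have : (α0 * conj α0 + β0 * conj β0) * β = 0 := by
      linear_combination β0 * ho - conj α0 * hdet
    exact (mul_eq_zero.1 this).resolve_left hs

/-! ### Parameter derivatives of the slow solutions -/

/-- `∂/∂lam` of `F0`. -/
def dF0 (d l : ℕ) (w : ℝ) (lam : ℂ) (r : ℝ) : ℂ := deriv (fun z => F0 d l w z r) lam
/-- `∂/∂lam` of `F0'`. -/
def dF0' (d l : ℕ) (w : ℝ) (lam : ℂ) (r : ℝ) : ℂ := deriv (fun z => F0' d l w z r) lam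
/-- `∂/∂lam` of `F0s`. -/
def dF0s (d l : ℕ) (w : ℝ) (lam : ℂ) (r : ℝ) : ℂ := deriv (fun z => F0s d l w z r) lam
/-- `∂/∂lam` of `F0s'`. -/
def dF0s' (d l : ℕ) (w : ℝ) (lam : ℂ) (r : ℝ) : ℂ := deriv (fun z => F0s' d l w z r) lam

lemma isOpen_dom (l : ℕ) : IsOpen {z : ℂ | -1 < z.re + l / 2} :=
  isOpen_lt continuous_const (Complex.continuous_re.add continuous_const)

/-- General principle behind the next four lemmas. -/
lemma tendsto_deriv_param {f : ℕ → ℕ → ℝ → ℂ → ℝ → ℂ} {d l : ℕ} {w R : ℝ} {lam : ℂ}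
    (h : -1 < lam.re + l / 2) (hR : 0 < R)
    (hd : ∀ (w : ℝ) (z : ℂ), -1 < z.re + l / 2 → ∀ r : ℝ, 0 < r →
      DifferentiableAt ℂ (fun z => f d l w z r) z)
    (hc : ∀ z : ℂ, -1 < z.re + l / 2 →
      ContinuousAt (fun q : (ℝ × ℝ) × ℂ => f d l q.1.1 q.2 q.1.2) ((w, R), z))
    {W Rr : ℕ → ℝ} {L : ℕ → ℂ} (hW : Tendsto W atTop (𝓝 w)) (hRr : Tendsto Rr atTop (𝓝 R))
    (hL : Tendsto L atTop (𝓝 lam)) :
    Tendsto (fun k => deriv (fun z => f d l (W k) z (Rr k)) (L k)) atTop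
      (𝓝 (deriv (fun z => f d l w z R) lam)) := by
  have key := continuousAt_deriv_family (X := ℝ × ℝ) (f := fun q z => f d l q.1 z q.2)
    (x₀ := (w, R)) (z₀ := lam) (isOpen_dom l) h ?_ hc
  · have hq : Tendsto (fun k => (((W k, Rr k) : ℝ × ℝ), L k)) atTop (𝓝 ((w, R), lam)) :=
      (hW.prodMk_nhds hRr).prodMk_nhds hL
    exact key.tendsto.comp hq
  · have : ∀ᶠ q : ℝ × ℝ in 𝓝 (w, R), 0 < q.2 :=
      (continuous_snd.tendsto (w, R)).eventually (lt_mem_nhds hR)
    filter_upwards [this] with q hq z hz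
    exact (hd q.1 z hz q.2 hq).differentiableWithinAt

/-- Sequences of parameters converging to `(w, R, lam)`. -/
structure ParSeq (l : ℕ) (w R : ℝ) (lam : ℂ) (W Rr : ℕ → ℝ) (L : ℕ → ℂ) : Prop where
  hlam : -1 < lam.re + l / 2
  hR : 0 < R
  hW : Tendsto W atTop (𝓝 w)
  hRr : Tendsto Rr atTop (𝓝 R)
  hL : Tendsto L atTop (𝓝 lam)

namespace ParSeq

variable {d l : ℕ} {w R : ℝ} {lam : ℂ} {W Rr : ℕ → ℝ} {L : ℕ → ℂ}

lemma tendsto_joint (h : ParSeq l w R lam W Rr L) :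
    Tendsto (fun k => (((W k, Rr k) : ℝ × ℝ), L k)) atTop (𝓝 ((w, R), lam)) :=
  (h.hW.prodMk_nhds h.hRr).prodMk_nhds h.hL

lemma tendsto_param (h : ParSeq l w R lam W Rr L) {g : ℝ → ℂ → ℝ → ℂ}
    (hc : ContinuousAt (fun q : (ℝ × ℝ) × ℂ => g q.1.1 q.2 q.1.2) ((w, R), lam)) :
    Tendsto (fun k => g (W k) (L k) (Rr k)) atTop (𝓝 (g w lam R)) :=
  hc.tendsto.comp h.tendsto_joint

lemma contF0 (hl : -1 < lam.re + l / 2) (hR : 0 < R) :
    ContinuousAt (fun q : (ℝ × ℝ) × ℂ => F0 d l q.1.1 q.2 q.1.2) ((w, R), lam) :=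
  continuousAt_F0 (X := (ℝ × ℝ) × ℂ) (w := fun q => q.1.1) (r := fun q => q.1.2)
    (lam := fun q => q.2) (x := ((w, R), lam)) hl hR (by fun_prop) (by fun_prop) (by fun_prop)

lemma contF0' (hl : -1 < lam.re + l / 2) (hR : 0 < R) :
    ContinuousAt (fun q : (ℝ × ℝ) × ℂ => F0' d l q.1.1 q.2 q.1.2) ((w, R), lam) :=
  continuousAt_F0' (X := (ℝ × ℝ) × ℂ) (w := fun q => q.1.1) (r := fun q => q.1.2)
    (lam := fun q => q.2) (x := ((w, R), lam)) hl hR (by fun_prop) (by fun_prop) (by fun_prop)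

lemma contF0s (hl : -1 < lam.re + l / 2) (hR : 0 < R) :
    ContinuousAt (fun q : (ℝ × ℝ) × ℂ => F0s d l q.1.1 q.2 q.1.2) ((w, R), lam) :=
  continuousAt_F0s (X := (ℝ × ℝ) × ℂ) (w := fun q => q.1.1) (r := fun q => q.1.2)
    (lam := fun q => q.2) (x := ((w, R), lam)) hl hR (by fun_prop) (by fun_prop) (by fun_prop)

lemma contF0s' (hl : -1 < lam.re + l / 2) (hR : 0 < R) :
    ContinuousAt (fun q : (ℝ × ℝ) × ℂ => F0s' d l q.1.1 q.2 q.1.2) ((w, R), lam) :=
  continuousAt_F0s' (X := (ℝ × ℝ) × ℂ) (w := fun q => q.1.1) (r := fun q => q.1.2)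
    (lam := fun q => q.2) (x := ((w, R), lam)) hl hR (by fun_prop) (by fun_prop) (by fun_prop)

lemma F0 (h : ParSeq l w R lam W Rr L) :
    Tendsto (fun k => KU.F0 d l (W k) (L k) (Rr k)) atTop (𝓝 (KU.F0 d l w lam R)) :=
  h.tendsto_param (g := KU.F0 d l) (contF0 (d := d) h.hlam h.hR)

lemma F0' (h : ParSeq l w R lam W Rr L) :
    Tendsto (fun k => KU.F0' d l (W k) (L k) (Rr k)) atTop (𝓝 (KU.F0' d l w lam R)) :=
  h.tendsto_param (g := KU.F0' d l) (contF0' (d := d) h.hlam h.hR)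

lemma F0s (h : ParSeq l w R lam W Rr L) :
    Tendsto (fun k => KU.F0s d l (W k) (L k) (Rr k)) atTop (𝓝 (KU.F0s d l w lam R)) :=
  h.tendsto_param (g := KU.F0s d l) (contF0s (d := d) h.hlam h.hR)

lemma F0s' (h : ParSeq l w R lam W Rr L) :
    Tendsto (fun k => KU.F0s' d l (W k) (L k) (Rr k)) atTop (𝓝 (KU.F0s' d l w lam R)) :=
  h.tendsto_param (g := KU.F0s' d l) (contF0s' (d := d) h.hlam h.hR)

lemma dF0 (h : ParSeq l w R lam W Rr L) :
    Tendsto (fun k => H694.dF0 d l (W k) (L k) (Rr k)) atTop (𝓝 (H694.dF0 d l w lam R)) :=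
  tendsto_deriv_param (f := KU.F0) h.hlam h.hR
    (fun _ _ hz _ hr => differentiableAt_F0 hz hr) (fun _ hz => contF0 hz h.hR) h.hW h.hRr h.hL

lemma dF0' (h : ParSeq l w R lam W Rr L) :
    Tendsto (fun k => H694.dF0' d l (W k) (L k) (Rr k)) atTop (𝓝 (H694.dF0' d l w lam R)) :=
  tendsto_deriv_param (f := KU.F0') h.hlam h.hR
    (fun _ _ hz _ hr => differentiableAt_F0' hz hr) (fun _ hz => contF0' hz h.hR) h.hW h.hRr h.hL

lemma dF0s (h : ParSeq l w R lam W Rr L) :
    Tendsto (fun k => H694.dF0s d l (W k) (L k) (Rr k)) atTop (𝓝 (H694.dF0s d l w lam R)) :=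
  tendsto_deriv_param (f := KU.F0s) h.hlam h.hR
    (fun _ _ hz _ hr => differentiableAt_F0s hz hr) (fun _ hz => contF0s hz h.hR) h.hW h.hRr h.hL

lemma dF0s' (h : ParSeq l w R lam W Rr L) :
    Tendsto (fun k => H694.dF0s' d l (W k) (L k) (Rr k)) atTop (𝓝 (H694.dF0s' d l w lam R)) :=
  tendsto_deriv_param (f := KU.F0s') h.hlam h.hR
    (fun _ _ hz _ hr => differentiableAt_F0s' hz hr) (fun _ hz => contF0s' hz h.hR)
    h.hW h.hRr h.hL

end ParSeq

/-- The derivative of the Evans function. -/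
theorem deriv_Ev {d l : ℕ} {w R : ℝ} {lam : ℂ} (h : -1 < lam.re + l / 2) (hR : 0 < R) :
    deriv (Ev d l w R) lam =
      dF0' d l w lam R * F0s d l w lam R + F0' d l w lam R * dF0s d l w lam R +
        (dF0 d l w lam R * F0s' d l w lam R + F0 d l w lam R * dF0s' d l w lam R) := by
  have h1 := (differentiableAt_F0' (d := d) (w := w) h hR).hasDerivAt
  have h2 := (differentiableAt_F0s (d := d) (w := w) h hR).hasDerivAt
  have h3 := (differentiableAt_F0 (d := d) (w := w) h hR).hasDerivAt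
  have h4 := (differentiableAt_F0s' (d := d) (w := w) h hR).hasDerivAt
  exact ((h1.mul h2).add (h3.mul h4)).deriv

/-- Left hand side of the first matching relation (the function `s` at the wall). -/
def mS (d l : ℕ) (w r : ℝ) (lam α β c α0 β0 : ℂ) : ℂ :=
  α * F0 d l w lam r + β * F0s d l w lam r +
    c * (α0 * dF0 d l w lam r + β0 * dF0s d l w lam r)

/-- Left hand side of the second matching relation (the function `t'` at the wall). -/
def mT (d l : ℕ) (w r : ℝ) (lam α β c α0 β0 : ℂ) : ℂ :=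
  α * F0' d l w lam r - β * F0s' d l w lam r +
    c * (α0 * dF0' d l w lam r - β0 * dF0s' d l w lam r)

section limit

variable {d l : ℕ} {w R : ℝ} {lam : ℂ} {W Rr : ℕ → ℝ} {L α β c α0 β0 : ℕ → ℂ} {a0 b0 : ℂ}

/-- Compactness: a subsequence of normalised coefficient vectors converges and the limit satisfies
the limiting matching relations. -/
theorem exists_limit (h : ParSeq l w R lam W Rr L)
    (hn : ∀ k, ‖α k‖ + ‖β k‖ + ‖c k‖ = 1)
    (hα0 : Tendsto α0 atTop (𝓝 a0)) (hβ0 : Tendsto β0 atTop (𝓝 b0))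
    (h1 : Tendsto (fun k => mS d l (W k) (Rr k) (L k) (α k) (β k) (c k) (α0 k) (β0 k)) atTop (𝓝 0))
    (h2 : Tendsto (fun k => mT d l (W k) (Rr k) (L k) (α k) (β k) (c k) (α0 k) (β0 k))
      atTop (𝓝 0)) :
    ∃ (φ : ℕ → ℕ) (a b e : ℂ), StrictMono φ ∧ Tendsto (α ∘ φ) atTop (𝓝 a) ∧
      Tendsto (β ∘ φ) atTop (𝓝 b) ∧ Tendsto (c ∘ φ) atTop (𝓝 e) ∧ ‖a‖ + ‖b‖ + ‖e‖ = 1 ∧
      mS d l w R lam a b e a0 b0 = 0 ∧ mT d l w R lam a b e a0 b0 = 0 := by
  set x : ℕ → ℂ × ℂ × ℂ := fun k => (α k, β k, c k) with hx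
  have hmem : ∀ k, x k ∈ Metric.closedBall (0 : ℂ × ℂ × ℂ) 1 := by
    intro k
    rw [mem_closedBall_zero_iff, Prod.norm_def, Prod.norm_def]
    have e1 := norm_nonneg (α k)
    have e2 := norm_nonneg (β k)
    have e3 := norm_nonneg (c k)
    have e4 := hn k
    simp only [hx]
    exact max_le (by linarith) (max_le (by linarith) (by linarith))
  obtain ⟨y, -, φ, hφ, hy⟩ := (isCompact_closedBall (0 : ℂ × ℂ × ℂ) 1).tendsto_subseq hmem
  have ha : Tendsto (α ∘ φ) atTop (𝓝 y.1) := (continuous_fst.tendsto y).comp hy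
  have hb : Tendsto (β ∘ φ) atTop (𝓝 y.2.1) :=
    ((continuous_fst.comp continuous_snd).tendsto y).comp hy
  have he : Tendsto (c ∘ φ) atTop (𝓝 y.2.2) :=
    ((continuous_snd.comp continuous_snd).tendsto y).comp hy
  have hφt := hφ.tendsto_atTop
  have h' : ParSeq l w R lam (W ∘ φ) (Rr ∘ φ) (L ∘ φ) :=
    ⟨h.hlam, h.hR, h.hW.comp hφt, h.hRr.comp hφt, h.hL.comp hφt⟩
  have hα0' := hα0.comp hφt
  have hβ0' := hβ0.comp hφt
  refine ⟨φ, y.1, y.2.1, y.2.2, hφ, ha, hb, he, ?_, ?_, ?_⟩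
  · have := (ha.norm.add hb.norm).add he.norm
    refine tendsto_nhds_unique this ?_
    simp only [Function.comp_apply, hn]
    exact tendsto_const_nhds
  · have := ((ha.mul (h'.F0 (d := d))).add (hb.mul (h'.F0s (d := d)))).add
      (he.mul ((hα0'.mul (h'.dF0 (d := d))).add (hβ0'.mul (h'.dF0s (d := d)))))
    exact tendsto_nhds_unique this (h1.comp hφt)
  · have := ((ha.mul (h'.F0' (d := d))).sub (hb.mul (h'.F0s' (d := d)))).add
      (he.mul ((hα0'.mul (h'.dF0' (d := d))).sub (hβ0'.mul (h'.dF0s' (d := d)))))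
    exact tendsto_nhds_unique this (h2.comp hφt)

/-- **SB4 (i).** Homogeneous sequences: the limit point is a zero of the Evans function. -/
theorem Ev_eq_zero_of_limit (h : ParSeq l w R lam W Rr L)
    (hn : ∀ k, ‖α k‖ + ‖β k‖ = 1)
    (h1 : Tendsto (fun k => mS d l (W k) (Rr k) (L k) (α k) (β k) 0 0 0) atTop (𝓝 0))
    (h2 : Tendsto (fun k => mT d l (W k) (Rr k) (L k) (α k) (β k) 0 0 0) atTop (𝓝 0)) :
    Ev d l w R lam = 0 := by
  obtain ⟨φ, a, b, e, -, -, -, he, hsum, e1, e2⟩ := exists_limit (c := fun _ => 0)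
    (α0 := fun _ => 0) (β0 := fun _ => 0) (a0 := 0) (b0 := 0) h
    (fun k => by simpa using hn k) tendsto_const_nhds tendsto_const_nhds h1 h2
  have he0 : e = 0 := tendsto_nhds_unique he tendsto_const_nhds
  subst he0
  simp only [mS, mT, zero_mul, add_zero] at e1 e2
  exact alg_det e1 e2 (by
    rintro ⟨rfl, rfl⟩
    simp at hsum)

/-- **SB4 (ii).** Near a simple zero of the Evans function coming from a symmetry mode there is no
second eigenpair and no Jordan block. -/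
theorem false_of_limit (h : ParSeq l w R lam W Rr L)
    (hn : ∀ k, ‖α k‖ + ‖β k‖ + ‖c k‖ = 1)
    (hα0 : Tendsto α0 atTop (𝓝 a0)) (hβ0 : Tendsto β0 atTop (𝓝 b0))
    (hn0 : ¬ (a0 = 0 ∧ b0 = 0))
    (horth : ∀ k, α k * conj (α0 k) + β k * conj (β0 k) = 0)
    (h1 : Tendsto (fun k => mS d l (W k) (Rr k) (L k) (α k) (β k) (c k) (α0 k) (β0 k)) atTop (𝓝 0))
    (h2 : Tendsto (fun k => mT d l (W k) (Rr k) (L k) (α k) (β k) (c k) (α0 k) (β0 k))
      atTop (𝓝 0))
    {W0 Rr0 : ℕ → ℝ} {L0 : ℕ → ℂ} (h0 : ParSeq l w R lam W0 Rr0 L0)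
    (h01 : Tendsto (fun k => mS d l (W0 k) (Rr0 k) (L0 k) (α0 k) (β0 k) 0 0 0) atTop (𝓝 0))
    (h02 : Tendsto (fun k => mT d l (W0 k) (Rr0 k) (L0 k) (α0 k) (β0 k) 0 0 0) atTop (𝓝 0))
    (hF : ¬ (KU.F0 d l w lam R = 0 ∧ KU.F0' d l w lam R = 0))
    (hE' : deriv (Ev d l w R) lam ≠ 0) : False := by
  obtain ⟨φ, a, b, e, hφ, ha, hb, he, hsum, e1, e2⟩ := exists_limit h hn hα0 hβ0 h1 h2
  -- the limiting relations for the symmetry mode
  have e01 : a0 * KU.F0 d l w lam R + b0 * KU.F0s d l w lam R = 0 := by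
    have := (hα0.mul (h0.F0 (d := d))).add (hβ0.mul (h0.F0s (d := d)))
    refine tendsto_nhds_unique this ?_
    simpa [mS] using h01
  have e02 : a0 * KU.F0' d l w lam R - b0 * KU.F0s' d l w lam R = 0 := by
    have := (hα0.mul (h0.F0' (d := d))).sub (hβ0.mul (h0.F0s' (d := d)))
    refine tendsto_nhds_unique this ?_
    simpa [mT] using h02
  have horth' : a * conj a0 + b * conj b0 = 0 := by
    have hφt := hφ.tendsto_atTop
    have c1 : Tendsto (fun k => conj (α0 (φ k))) atTop (𝓝 (conj a0)) :=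
      (Complex.continuous_conj.tendsto _).comp (hα0.comp hφt)
    have c2 : Tendsto (fun k => conj (β0 (φ k))) atTop (𝓝 (conj b0)) :=
      (Complex.continuous_conj.tendsto _).comp (hβ0.comp hφt)
    have := (ha.mul c1).add (hb.mul c2)
    refine tendsto_nhds_unique this ?_
    simp only [Function.comp_apply, horth]
    exact tendsto_const_nhds
  by_cases hc : e = 0
  · subst hc
    simp only [mS, mT, zero_mul, add_zero] at e1 e2
    have hab : ¬ (a = 0 ∧ b = 0) := by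
      rintro ⟨rfl, rfl⟩
      simp at hsum
    exact hF (alg_indep e01 e02 e1 e2 (det_ne_of_orthogonal horth' hn0 hab))
  · apply hE'
    rw [deriv_Ev h.hlam h.hR]
    exact alg_double e01 e02 hn0 e1 e2 hc

end limit

end Vale.Agent.P139.H694
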